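import Mathlib.Topology.Homotopy.Lifting
import Mathlib.Topology.Algebra.ConstMulAction

/-!
# P281, theorem T-D (helper64): two universal coverings of the same space
-/

open Set Filter Topology

namespace Vale.Agent.P281.H64

theorem iso_of_cov {B E E' Γ Γ' : Type} [TopologicalSpace B] [TopologicalSpace E]
    [TopologicalSpace E'] [SimplyConnectedSpace E] [SimplyConnectedSpace E']
    [LocallyPathConnectedSpace E] [LocallyPathConnectedSpace E'] [Group Γ] [Group Γ']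
    [MulAction Γ E] [MulAction Γ' E'] [ContinuousConstSMul Γ E] [ContinuousConstSMul Γ' E']
    {c : E → B} {c' : E' → B} (hc : IsCoveringMap c) (hc' : IsCoveringMap c')
    (h : ∀ e e₂, c e = c e₂ ↔ ∃ γ : Γ, γ • e = e₂)
    (h' : ∀ e e₂, c' e = c' e₂ ↔ ∃ γ : Γ', γ • e = e₂)
    (hf : ∀ (γ : Γ) (e : E), γ • e = e → γ = 1)
    (hf' : ∀ (γ : Γ') (e : E'), γ • e = e → γ = 1) {e₀ : E} {e₀' : E'} (h0 : c e₀ = c' e₀') :
    ∃ (τ : E ≃ₜ E') (ρ : Γ ≃* Γ'), (∀ γ e, τ (γ • e) = ρ γ • τ e) ∧ ∀ e, c' (τ e) = c e := by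
  obtain ⟨τ, ⟨hτ0, hτ⟩, -⟩ := hc'.existsUnique_continuousMap_lifts ⟨c, hc.continuous⟩ e₀ e₀' h0.symm
  obtain ⟨τ', ⟨hτ0', hτ'⟩, -⟩ := hc.existsUnique_continuousMap_lifts ⟨c', hc'.continuous⟩ e₀' e₀ h0
  have a1 : ∀ e, c' (τ e) = c e := fun e => congrFun hτ e
  have a2 : ∀ e, c (τ' e) = c' e := fun e => congrFun hτ' e
  have b1 : ∀ e, τ' (τ e) = e := fun e => by
    have := hc.eq_of_comp_eq (g₁ := fun e => τ' (τ e)) (g₂ := fun e => e)
      (τ'.continuous.comp τ.continuous) continuous_id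
      (funext fun e => by show c (τ' (τ e)) = c e; rw [a2, a1]) e₀ (by
        show τ' (τ e₀) = e₀
        rw [hτ0, hτ0'])
    exact congrFun this e
  have b2 : ∀ e, τ (τ' e) = e := fun e => by
    have := hc'.eq_of_comp_eq (g₁ := fun e => τ (τ' e)) (g₂ := fun e => e)
      (τ.continuous.comp τ'.continuous) continuous_id
      (funext fun e => by show c' (τ (τ' e)) = c' e; rw [a1, a2]) e₀' (by
        show τ (τ' e₀') = e₀'
        rw [hτ0', hτ0])
    exact congrFun this e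
  -- the deck transformations
  have d1 : ∀ γ : Γ, ∃ γ' : Γ', ∀ e, τ (γ • e) = γ' • τ e := by
    intro γ
    obtain ⟨γ', hγ'⟩ := (h' (τ e₀) (τ (γ • e₀))).1 (by
      rw [a1, a1]; exact (h _ _).2 ⟨γ, rfl⟩)
    refine ⟨γ', fun e => ?_⟩
    have := hc'.eq_of_comp_eq (g₁ := fun e => τ (γ • e)) (g₂ := fun e => γ' • τ e)
      (τ.continuous.comp (continuous_const_smul γ)) ((continuous_const_smul γ').comp τ.continuous)
      (funext fun e => by
        show c' (τ (γ • e)) = c' (γ' • τ e)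
        rw [a1, ← (h' (τ e) (γ' • τ e)).2 ⟨γ', rfl⟩, a1]
        exact ((h _ _).2 ⟨γ, rfl⟩).symm) e₀ hγ'.symm
    exact congrFun this e
  have d2 : ∀ γ : Γ', ∃ γ' : Γ, ∀ e, τ' (γ • e) = γ' • τ' e := by
    intro γ
    obtain ⟨γ', hγ'⟩ := (h (τ' e₀') (τ' (γ • e₀'))).1 (by
      rw [a2, a2]; exact (h' _ _).2 ⟨γ, rfl⟩)
    refine ⟨γ', fun e => ?_⟩
    have := hc.eq_of_comp_eq (g₁ := fun e => τ' (γ • e)) (g₂ := fun e => γ' • τ' e)
      (τ'.continuous.comp (continuous_const_smul γ)) ((continuous_const_smul γ').comp τ'.continuous)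
      (funext fun e => by
        show c (τ' (γ • e)) = c (γ' • τ' e)
        rw [a2, ← (h (τ' e) (γ' • τ' e)).2 ⟨γ', rfl⟩, a2]
        exact ((h' _ _).2 ⟨γ, rfl⟩).symm) e₀' hγ'.symm
    exact congrFun this e
  choose r hr using d1
  choose r' hr' using d2
  have c1 : ∀ (γ γ₂ : Γ) (e : E), γ • e = γ₂ • e → γ = γ₂ := fun γ γ₂ e he => by
    have h1 : (γ₂⁻¹ * γ) • e = e := by rw [mul_smul, he, inv_smul_smul]
    exact (inv_mul_eq_one.1 (hf _ _ h1)).symm
  have c2 : ∀ (γ γ₂ : Γ') (e : E'), γ • e = γ₂ • e → γ = γ₂ := fun γ γ₂ e he => by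
    have h1 : (γ₂⁻¹ * γ) • e = e := by rw [mul_smul, he, inv_smul_smul]
    exact (inv_mul_eq_one.1 (hf' _ _ h1)).symm
  refine ⟨⟨⟨τ, τ', b1, b2⟩, τ.continuous, τ'.continuous⟩,
    { toFun := r
      invFun := r'
      left_inv := fun γ => ?_
      right_inv := fun γ => ?_
      map_mul' := fun γ γ₂ => ?_ }, hr, a1⟩
  · refine c1 _ _ e₀ ?_
    have h1 := hr' (r γ) (τ e₀)
    rw [← hr, b1, b1] at h1
    exact h1.symm
  · refine c2 _ _ e₀' ?_
    have h1 := hr (r' γ) (τ' e₀')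
    rw [← hr', b2, b2] at h1
    exact h1.symm
  · refine c2 _ _ (τ e₀) ?_
    rw [← hr, mul_smul, hr, hr, mul_smul]

end Vale.Agent.P281.H64
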