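import Vale.Agent.P281.H64.Spec
import Vale.Agent.P281.H713.DefsO
import Vale.Agent.P281.H713.TZ.S

/-!
# P281, theorem T-D (helper64): statements of the geometric blocks (FROZEN)
-/

open Set Filter Metric MeasureTheory Vale.Agent.P281 Vale.Agent.P281.H713
open scoped Topology ContDiff Manifold ComplexConjugate

noncomputable section

namespace Vale.Agent.P281.H64

section
variable {n p : ℕ} {Z Y : Type} [TopologicalSpace Z] [ChartedSpace (Cm n) Z]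
  [TopologicalSpace Y] [ChartedSpace (Cm p) Y]

/-- Over `Y ∖ S`, `f : Z → Y` is a proper submersion with connected fibres. -/
structure IsProperFibration (f : Z → Y) (S : Set Y) : Prop where
  isClosed : IsClosed S
  proper : ∀ K : Set Y, IsCompact K → K ⊆ Sᶜ → IsCompact (f ⁻¹' K)
  submersive : ∀ x, f x ∉ S → Function.Surjective (mfderiv 𝓘(ℂ, Cm n) 𝓘(ℂ, Cm p) f x)
  connected : ∀ y, y ∉ S → IsConnected (f ⁻¹' {y})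

/-- The horizontal part of `Δ` (the components which are not contained in `f⁻¹(S)`) is étale over
`Y ∖ S`: over `Y ∖ S`, its components are disjoint, smooth and transversal to the fibres. -/
def IsEtale (f : Z → Y) (S : Set Y) (Δ : Set Z → ℝ) : Prop :=
  (∀ D ∈ horizontal f S Δ, ∀ x ∈ D, f x ∉ S → ∃ u, J.IsLocalEq (Cm n) D u x ∧
    ∀ ξ : Cm n, mfderiv 𝓘(ℂ, Cm n) 𝓘(ℂ, Cm p) f x ξ = 0 → J.dif (Cm n) u x ξ = 0 → ξ = 0) ∧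
  ∀ D ∈ horizontal f S Δ, ∀ D' ∈ horizontal f S Δ, D ≠ D' → ∀ x ∈ D ∩ D', f x ∈ S

/-- The family `𝓕` of Riemann surfaces is `f` over the open set `χ⁻¹(T)` of `Y`: the map
`q t : E → f⁻¹(χ⁻¹ t)` is the universal covering, and `(t, z) ↦ q t (σ i t z)` are holomorphic
charts of `Z`. -/
structure Model {E Γ : Type} [TopologicalSpace E] [Group Γ] [MulAction Γ E] (f : Z → Y)
    (𝓕 : Fam p E Γ) (χ : OpenPartialHomeomorph Y (Cm p)) (q : Cm p → E → Z) : Prop where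
  atlas : χ ∈ atlas (Cm p) Y
  sub : 𝓕.T ⊆ χ.target
  fib : ∀ t ∈ 𝓕.T, ∀ e, f (q t e) = χ.symm t
  eq : ∀ t ∈ 𝓕.T, ∀ e e', q t e = q t e' ↔ ∃ γ : Γ, γ • e = e'
  surj : ∀ z, f z ∈ χ.source → χ (f z) ∈ 𝓕.T → ∃ e, q (χ (f z)) e = z
  hol : ∀ i, ∀ t ∈ 𝓕.T, ∀ z ∈ ball (0 : ℂ) 3,
    ContMDiffAt 𝓘(ℂ, Cm p × ℂ) 𝓘(ℂ, Cm n) ω (fun r : Cm p × ℂ => q r.1 (𝓕.σ i r.1 r.2)) (t, z)
  coord : ∀ i, ∀ t ∈ 𝓕.T, ∀ z ∈ ball (0 : ℂ) 3, ∃ ζ : Z → ℂ,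
    ContMDiffAt 𝓘(ℂ, Cm n) 𝓘(ℂ, ℂ) ω ζ (q t (𝓕.σ i t z)) ∧ ζ (q t (𝓕.σ i t z)) = z ∧
    ∀ᶠ x in 𝓝 (q t (𝓕.σ i t z)), q (χ (f x)) (𝓕.σ i (χ (f x)) (ζ x)) = x
  cov : ∀ t (ht : t ∈ 𝓕.T), IsCoveringMap fun e : E => (⟨q t e, fib t ht e⟩ : f ⁻¹' {χ.symm t})

end

/-- **AB** (Ehresmann): near every point of `Y ∖ S`, `f` is given by a family `𝓕`.
Proof: finitely many product charts `(t, z)` near the compact fibre; `P290/H470/Triv.lean`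
(`exists_triv`); universal covering of the fibre (e.g. `P300/H673/UC.lean`), lift of the charts. -/
def ABStmt : Prop :=
  ∀ (p : ℕ) (Z Y : Type) [TopologicalSpace Z] [T2Space Z] [ChartedSpace (Cm (p + 1)) Z]
    [IsManifold 𝓘(ℂ, Cm (p + 1)) ω Z] [TopologicalSpace Y] [T2Space Y] [ChartedSpace (Cm p) Y]
    [IsManifold 𝓘(ℂ, Cm p) ω Y] (f : Z → Y) (S : Set Y),
    ContMDiff 𝓘(ℂ, Cm (p + 1)) 𝓘(ℂ, Cm p) ω f → IsProperFibration (n := p + 1) (p := p) f S →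
    ∀ y₀ ∉ S, ∃ (E Γ : Type) (_ : TopologicalSpace E) (_ : T2Space E) (_ : SimplyConnectedSpace E)
      (_ : Group Γ) (_ : MulAction Γ E) (_ : ContinuousConstSMul Γ E) (𝓕 : Fam p E Γ)
      (q : Cm p → E → Z), Model (n := p + 1) f 𝓕 (chartAt (Cm p) y₀) q ∧ chartAt (Cm p) y₀ y₀ ∈ 𝓕.T ∧
      ∀ t ∈ 𝓕.T, (chartAt (Cm p) y₀).symm t ∉ S

/-- **K**: two models at the same point `y` of `Y`: isomorphic coverings of the fibre. -/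
def KStmt : Prop :=
  ∀ (n p : ℕ) (Z Y : Type) [TopologicalSpace Z] [T2Space Z] [ChartedSpace (Cm n) Z]
    [IsManifold 𝓘(ℂ, Cm n) ω Z] [TopologicalSpace Y] [T2Space Y] [ChartedSpace (Cm p) Y]
    [IsManifold 𝓘(ℂ, Cm p) ω Y] (f : Z → Y)
    (E Γ : Type) [TopologicalSpace E] [T2Space E] [SimplyConnectedSpace E] [Group Γ]
    [MulAction Γ E] [ContinuousConstSMul Γ E] (𝓕 : Fam p E Γ) (q : Cm p → E → Z)
    (χ : OpenPartialHomeomorph Y (Cm p))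
    (E' Γ' : Type) [TopologicalSpace E'] [T2Space E'] [SimplyConnectedSpace E'] [Group Γ']
    [MulAction Γ' E'] [ContinuousConstSMul Γ' E'] (𝓕' : Fam p E' Γ') (q' : Cm p → E' → Z)
    (χ' : OpenPartialHomeomorph Y (Cm p)), ContMDiff 𝓘(ℂ, Cm n) 𝓘(ℂ, Cm p) ω f →
    Model (n := n) f 𝓕 χ q → Model (n := n) f 𝓕' χ' q' → ∀ t ∈ 𝓕.T, ∀ t' ∈ 𝓕'.T, χ.symm t = χ'.symm t' →
    ∃ (τ : E ≃ₜ E') (ρ : Γ ≃* Γ'), (∀ γ e, τ (γ • e) = ρ γ • τ e) ∧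
      (∀ e, q' t' (τ e) = q t e) ∧
      ∀ i j, ∀ z ∈ ball (0 : ℂ) 3, ∀ w ∈ ball (0 : ℂ) 3, ∀ γ : Γ',
        τ (𝓕.σ i t z) = γ • 𝓕'.σ j t' w → ∃ θ : ℂ → ℂ, AnalyticAt ℂ θ z ∧ θ z = w ∧
          deriv θ z ≠ 0 ∧ ∀ᶠ u in 𝓝 z, τ (𝓕.σ i t u) = γ • 𝓕'.σ j t' (θ u)

/-- **M**: over `Y ∖ S` (connected) the horizontal divisors are given locally by `d` disjoint
sections `s k`, with coefficients `δ k`. -/
def MStmt : Prop :=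
  ∀ (p : ℕ) (Z Y : Type) [TopologicalSpace Z] [T2Space Z] [ChartedSpace (Cm (p + 1)) Z]
    [IsManifold 𝓘(ℂ, Cm (p + 1)) ω Z] [TopologicalSpace Y] [T2Space Y] [ChartedSpace (Cm p) Y]
    [IsManifold 𝓘(ℂ, Cm p) ω Y] (f : Z → Y) (S : Set Y) (Δ : Set Z → ℝ),
    ContMDiff 𝓘(ℂ, Cm (p + 1)) 𝓘(ℂ, Cm p) ω f → IsProperFibration (n := p + 1) (p := p) f S →
    IsPreconnected Sᶜ → {D | Δ D ≠ 0}.Finite → (∀ D, Δ D ≠ 0 → IsClosed D) →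
    IsEtale (n := p + 1) (p := p) f S Δ →
    ∃ (d : ℕ) (δ : Fin d → ℝ), ∀ y₀ ∉ S, ∃ (U : Set Y) (s : Fin d → Y → Z), IsOpen U ∧ y₀ ∈ U ∧
      U ⊆ Sᶜ ∧ (∀ k, ∀ y ∈ U, ContMDiffAt 𝓘(ℂ, Cm p) 𝓘(ℂ, Cm (p + 1)) ω (s k) y ∧
        f (s k y) = y) ∧
      (∀ k l, ∀ y ∈ U, s k y = s l y → k = l) ∧
      (∀ x, f x ∈ U → ∀ D ∈ horizontal f S Δ, x ∈ D → ∃ k, x = s k (f x)) ∧
      ∀ k, ∀ y ∈ U, ∃ D ∈ horizontal f S Δ, Δ D = δ k ∧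
        ∀ᶠ x in 𝓝 (s k y), x ∈ D ↔ x = s k (f x)

/-- **CO**: `Y ∖ S` is connected if `X` is (`Z` is `X` minus a set of codimension `≥ 2`). -/
def COStmt : Prop :=
  ∀ (n p : ℕ) (X Z Y : Type) [TopologicalSpace X] [T2Space X] [ConnectedSpace X]
    [ChartedSpace (Cm n) X] [TopologicalSpace Z] [ChartedSpace (Cm n) Z]
    [TopologicalSpace Y] [T2Space Y] [ChartedSpace (Cm p) Y] (j : Z → X) (f : Z → Y)
    (𝒢 : Set (Set Y)) (Δ : Set X → ℝ) (Δ' : Set Z → ℝ),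
    TZ.S.Setup (Cm n) (Cm p) j f 𝒢 Δ Δ' → IsProperFibration (n := n) (p := p) f (⋃₀ 𝒢) →
    IsPreconnected (⋃₀ 𝒢)ᶜ

/-- **TD**: the goal. -/
def TDStmt : Prop :=
  ∀ (p : ℕ) (Z Y : Type) [TopologicalSpace Z] [T2Space Z] [ChartedSpace (Cm (p + 1)) Z]
    [IsManifold 𝓘(ℂ, Cm (p + 1)) ω Z] [TopologicalSpace Y] [T2Space Y] [ChartedSpace (Cm p) Y]
    [IsManifold 𝓘(ℂ, Cm p) ω Y] (f : Z → Y) (S : Set Y) (Δ : Set Z → ℝ),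
    ContMDiff 𝓘(ℂ, Cm (p + 1)) 𝓘(ℂ, Cm p) ω f → IsProperFibration (n := p + 1) (p := p) f S →
    IsPreconnected Sᶜ → {D | Δ D ≠ 0}.Finite → (∀ D, Δ D ≠ 0 → IsClosed D) →
    IsEtale (n := p + 1) (p := p) f S Δ →
    IsFamilyOfCurves (Cm (p + 1)) (Cm p) f S Δ

end Vale.Agent.P281.H64
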