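import Vale.Agent.P281.H64.Base

/-!
# P281, theorem T-D (helper64): additive functions, change of sheets, transport
-/

open Set Filter Metric MeasureTheory
open scoped Topology ContDiff ComplexConjugate

noncomputable section

namespace Vale.Agent.P281.H64

variable {E Γ : Type} [TopologicalSpace E] [Group Γ] [MulAction Γ E]

/-! ### Identity theorem -/

/-- an additive function which is constant near a point is constant -/
theorem Add.const_of_eventually [ContinuousConstSMul Γ E] [PreconnectedSpace E] {S : Sheets E Γ}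
    {h : E → ℂ} {c : Γ → ℂ} (H : Add S h c) {e₀ : E} (h0 : ∀ᶠ e in 𝓝 e₀, h e = h e₀) (e : E) :
    h e = h e₀ := by
  -- the set of points near which `h = h e₀`
  set A : Set E := {e | ∀ᶠ e' in 𝓝 e, h e' = h e₀} with hA
  have hopen : IsOpen A := by
    rw [isOpen_iff_eventually]
    intro e he
    exact he.eventually_nhds
  have hclosed : IsClosed A := by
    rw [isClosed_iff_clusterPt]
    intro e he
    obtain ⟨γ, i, z, hz, rfl⟩ := S.cover e
    have hz3 := Sheets.mem3 hz
    -- the sheet meets `A`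
    have hopen' := S.isOpen_image_smul γ i isOpen_ball (Subset.refl (ball (0 : ℂ) 3))
    have hne : ((fun u => γ • S.σ i u) '' ball 0 3 ∩ A).Nonempty :=
      clusterPt_principal_iff.1 he _ (hopen'.mem_nhds ⟨z, hz3, rfl⟩)
    obtain ⟨_, ⟨w, hw, rfl⟩, hwA⟩ := hne
    have h1 : ∀ᶠ u in 𝓝 w, h (γ • S.σ i u) = h e₀ := (S.contAt_smul γ i hw).eventually hwA
    have han : AnalyticOnNhd ℂ (fun u => h (γ • S.σ i u)) (ball 0 3) :=
      fun u hu => H.analyticAt γ i hu
    have h2 : EqOn (fun u => h (γ • S.σ i u)) (fun _ => h e₀) (ball 0 3) :=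
      han.eqOn_of_preconnected_of_eventuallyEq analyticOnNhd_const
        (convex_ball (0 : ℂ) 3).isPreconnected hw h1
    show ∀ᶠ e' in 𝓝 (γ • S.σ i z), h e' = h e₀
    rw [← S.map_nhds_smul γ i hz3, eventually_map]
    filter_upwards [isOpen_ball.mem_nhds hz3] with u hu
    exact h2 hu
  have hclopen : IsClopen A := ⟨hclosed, hopen⟩
  have huniv : A = univ := hclopen.eq_univ ⟨e₀, h0⟩
  have he : e ∈ A := by rw [huniv]; trivial
  exact he.self_of_nhds

theorem Add.per_zero [Nonempty E] {S : Sheets E Γ} {h : E → ℂ} {c : Γ → ℂ} (H : Add S h c)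
    (hc : ∀ e e', h e = h e') (γ : Γ) : c γ = 0 := by
  obtain ⟨e⟩ := ‹Nonempty E›
  have h1 := H.add γ e
  rw [hc (γ • e) e] at h1
  simpa using h1

/-- two additive functions with the same periods differ by a constant -/
theorem Add.diff_const {S : Sheets E Γ} (hC2 : ∀ (h : E → ℂ) (c : Γ → ℂ), Add S h c →
    (∀ γ, (c γ).re = 0) → ∀ e e', h e = h e') {h h' : E → ℂ} {c : Γ → ℂ} (H : Add S h c)
    (H' : Add S h' c) (e e' : E) : h e - h' e = h e' - h' e' := by
  have h1 := H'.lin H (-1)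
  have h2 := hC2 _ _ h1 (fun γ => by simp) e e'
  linear_combination h2

/-! ### Complex periods in terms of a marking -/

theorem Mark.complex {n : ℕ} (M : Mark Γ n) {c : Γ → ℂ} (hc : ∀ a b, c (a * b) = c a + c b)
    (γ : Γ) : c γ = ∑ k, (M.φ k γ : ℂ) * c (M.g k) := by
  have h1 := M.complete (fun γ => (c γ).re) (fun a b => by rw [hc, Complex.add_re]) γ
  have h2 := M.complete (fun γ => (c γ).im) (fun a b => by rw [hc, Complex.add_im]) γ
  apply Complex.ext
  · rw [h1, Complex.re_sum]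
    refine Finset.sum_congr rfl fun k _ => ?_
    simp [mul_comm]
  · rw [h2, Complex.im_sum]
    refine Finset.sum_congr rfl fun k _ => ?_
    simp [mul_comm]

/-! ### Change of sheets -/

theorem HolCompat.add {S S' : Sheets E Γ} (hS : HolCompat S S') {h : E → ℂ} {c : Γ → ℂ}
    (H : Add S h c) : Add S' h c where
  add := H.add
  hol j w hw := by
    obtain ⟨γ, i, z, hz, he⟩ := S.cover (S'.σ j w)
    have hz3 := Sheets.mem3 hz
    obtain ⟨θ, h1, h2, h3, h4⟩ := hS i j z hz3 w hw γ⁻¹ (by rw [← he, inv_smul_smul])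
    have h5 : AnalyticAt ℂ (fun v => h (γ⁻¹ • S'.σ j v)) (θ z) := by
      rw [← analyticAt_comp_iff_of_deriv_ne_zero h1 h3]
      refine AnalyticAt.congr (H.analyticAt 1 i hz3) ?_
      filter_upwards [h4] with u hu
      show h ((1 : Γ) • S.σ i u) = h (γ⁻¹ • S'.σ j (θ u))
      rw [← hu, one_smul]
    rw [h2] at h5
    have h6 : (fun v => h (S'.σ j v)) = fun v => h (γ⁻¹ • S'.σ j v) - c γ⁻¹ := by
      funext v
      rw [H.add]
      ring
    rw [h6]
    exact (h5.differentiableAt.sub_const _).differentiableWithinAt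

theorem HolCompat.symm [ContinuousConstSMul Γ E] {S S' : Sheets E Γ} (hS : HolCompat S S') :
    HolCompat S' S := by
  intro j i w hw z hz γ he
  obtain ⟨θ, h1, h2, h3, h4⟩ := hS i j z hz w hw γ⁻¹ (by rw [he, inv_smul_smul])
  have hs := h1.hasStrictDerivAt
  set r := hs.localInverse θ (deriv θ z) z h3 with hr
  have hra : AnalyticAt ℂ r (θ z) := h1.analyticAt_localInverse h3
  have hr0 : r (θ z) = z := HasStrictFDerivAt.localInverse_apply_image ..
  have hr1 : ∀ᶠ v in 𝓝 (θ z), θ (r v) = v := HasStrictDerivAt.eventually_right_inverse ..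
  have hd : deriv r (θ z) = (deriv θ z)⁻¹ := (hs.to_localInverse h3).hasDerivAt.deriv
  rw [h2] at hra hr0 hr1 hd
  refine ⟨r, hra, hr0, by rw [hd]; exact inv_ne_zero h3, ?_⟩
  have h5 : ∀ᶠ v in 𝓝 w, S.σ i (r v) = γ⁻¹ • S'.σ j (θ (r v)) :=
    hra.continuousAt.eventually (by rw [hr0]; exact h4)
  filter_upwards [h5, hr1] with v a b
  rw [a, b, smul_inv_smul]

theorem HolCompat.refl (S : Sheets E Γ) : HolCompat S S := by
  intro i j z hz w hw γ he
  obtain ⟨θ, h1, h2, h3⟩ := S.hol i j z hz w hw γ he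
  exact ⟨θ, h1, h2, S.trans_deriv hz hw h1 h2 h3, h3⟩

theorem det_mul_pos (a : ℂ) (ha : a ≠ 0) :
    0 < ((ContinuousLinearMap.toSpanSingleton ℂ a).restrictScalars ℝ).det := by
  have h1 : ((ContinuousLinearMap.toSpanSingleton ℂ a).restrictScalars ℝ).det = ‖a‖ ^ 2 := by
    rw [ContinuousLinearMap.det]
    rw [← LinearMap.det_toMatrix Complex.basisOneI]
    rw [Matrix.det_fin_two]
    simp [LinearMap.toMatrix_apply]
    rw [Complex.sq_norm, Complex.normSq_apply]
  rw [h1]
  positivity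

theorem HolCompat.compat {S S' : Sheets E Γ} (hS : HolCompat S S') : Compat S S' := by
  intro i j z hz w hw γ he
  obtain ⟨θ, h1, h2, h3, h4⟩ := hS i j z hz w hw γ he
  refine ⟨θ, h1.contDiffAt.restrict_scalars ℝ |>.of_le le_top, h2, ?_, h4⟩
  have h5 : fderiv ℝ θ z = (fderiv ℂ θ z).restrictScalars ℝ :=
    h1.differentiableAt.fderiv_restrictScalars ℝ
  rw [h5, ← toSpanSingleton_deriv]
  exact det_mul_pos _ h3

/-! ### The form of the real periods -/

/-- `Im herm` is the bilinear form with matrix `B` in the real periods. -/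
def HasForm (S : Sheets E Γ) {n : ℕ} (M : Mark Γ n) (B : Matrix (Fin n) (Fin n) ℝ) : Prop :=
  ∀ h c h' c', Add S h c → Add S h' c' →
    (S.herm h h').im = ∑ k, ∑ l, B k l * (c (M.g k)).re * (c' (M.g l)).re

/-- a real function on the basis extends to a homomorphism -/
def Mark.ext {n : ℕ} (M : Mark Γ n) (a : Fin n → ℝ) (γ : Γ) : ℝ := ∑ k, a k * M.φ k γ

theorem Mark.ext_hom {n : ℕ} (M : Mark Γ n) (a : Fin n → ℝ) (x y : Γ) :
    M.ext a (x * y) = M.ext a x + M.ext a y := by
  rw [Mark.ext, Mark.ext, Mark.ext, ← Finset.sum_add_distrib]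
  refine Finset.sum_congr rfl fun k _ => ?_
  rw [M.hom]
  push_cast
  ring

theorem Mark.ext_g {n : ℕ} (M : Mark Γ n) (a : Fin n → ℝ) (l : Fin n) : M.ext a (M.g l) = a l := by
  rw [Mark.ext, Finset.sum_eq_single l]
  · rw [M.dual]; simp
  · intro k _ hk
    rw [M.dual, if_neg hk]; simp
  · simp

/-- the matrix is unique, by the existence of functions with given real periods -/
theorem HasForm.unique {S : Sheets E Γ} {n : ℕ} {M : Mark Γ n} {B B' : Matrix (Fin n) (Fin n) ℝ}
    (hC2 : ∀ a : Γ → ℝ, (∀ x y, a (x * y) = a x + a y) → ∃ (h : E → ℂ) (c : Γ → ℂ), Add S h c ∧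
      ∀ γ, (c γ).re = a γ) (hB : HasForm S M B) (hB' : HasForm S M B') : B = B' := by
  ext k l
  obtain ⟨h, c, H, hc⟩ := hC2 _ (M.ext_hom (Pi.single k 1))
  obtain ⟨h', c', H', hc'⟩ := hC2 _ (M.ext_hom (Pi.single l 1))
  have h1 := hB h c h' c' H H'
  rw [hB' h c h' c' H H'] at h1
  simp only [hc, hc', M.ext_g] at h1
  have h2 : ∀ C : Matrix (Fin n) (Fin n) ℝ, ∑ i, ∑ j, C i j * (Pi.single k 1 : Fin n → ℝ) i *
      (Pi.single l 1 : Fin n → ℝ) j = C k l := by
    intro C
    rw [Finset.sum_eq_single k, Finset.sum_eq_single l]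
    · simp
    · intro j _ hj; simp [Pi.single_eq_of_ne hj]
    · simp
    · intro j _ hj; simp [Pi.single_eq_of_ne hj]
    · simp
  rw [h2, h2] at h1
  exact h1.symm

/-! ### Transport by a homeomorphism -/

section transport
variable {E' Γ' : Type} [TopologicalSpace E'] [Group Γ'] [MulAction Γ' E']

/-- the sheets of `S'`, as sheets on `E` -/
def Sheets.pull (S' : Sheets E' Γ') (τ : E ≃ₜ E') (ρ : Γ ≃* Γ') (hτ : ∀ γ e, τ (γ • e) = ρ γ • τ e) :
    Sheets E Γ where
  N := S'.N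
  σ i z := τ.symm (S'.σ i z)
  map_nhds i z hz := by
    have h1 : (fun z => τ.symm (S'.σ i z)) = τ.symm ∘ S'.σ i := rfl
    rw [h1, ← Filter.map_map, S'.map_nhds i z hz]
    exact τ.symm.map_nhds_eq _
  inj i z hz w hw γ h := by
    have h1 := congrArg τ h
    rw [hτ, τ.apply_symm_apply, τ.apply_symm_apply] at h1
    obtain ⟨h2, h3⟩ := S'.inj i z hz w hw _ h1
    exact ⟨by rw [← ρ.map_one] at h2; exact ρ.injective h2, h3⟩
  cover e := by
    obtain ⟨γ, i, z, hz, he⟩ := S'.cover (τ e)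
    refine ⟨ρ.symm γ, i, z, hz, ?_⟩
    apply τ.injective
    rw [hτ, τ.apply_symm_apply, ρ.apply_symm_apply, he]
  closed i r hr := by
    have h1 : {e : E | ∃ (γ : Γ) (z : ℂ), ‖z‖ ≤ r ∧ γ • τ.symm (S'.σ i z) = e} =
        τ ⁻¹' {e : E' | ∃ (γ : Γ') (z : ℂ), ‖z‖ ≤ r ∧ γ • S'.σ i z = e} := by
      ext e
      constructor
      · rintro ⟨γ, z, hz, rfl⟩
        exact ⟨ρ γ, z, hz, by rw [hτ, τ.apply_symm_apply]⟩
      · rintro ⟨γ, z, hz, he⟩
        refine ⟨ρ.symm γ, z, hz, ?_⟩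
        apply τ.injective
        rw [hτ, τ.apply_symm_apply, ρ.apply_symm_apply, he]
    rw [h1]
    exact (S'.closed i r hr).preimage τ.continuous
  hol i j z hz w hw γ h := by
    have h1 := congrArg τ h
    rw [hτ, τ.apply_symm_apply, τ.apply_symm_apply] at h1
    obtain ⟨θ, h2, h3, h4⟩ := S'.hol i j z hz w hw _ h1
    refine ⟨θ, h2, h3, ?_⟩
    filter_upwards [h4] with u hu
    apply τ.injective
    rw [hτ, τ.apply_symm_apply, τ.apply_symm_apply, hu]

variable {S' : Sheets E' Γ'} {τ : E ≃ₜ E'} {ρ : Γ ≃* Γ'} {hτ : ∀ γ e, τ (γ • e) = ρ γ • τ e}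

theorem Add.pull {h : E' → ℂ} {c : Γ' → ℂ} (H : Add S' h c) :
    Add (S'.pull τ ρ hτ) (fun e => h (τ e)) (fun γ => c (ρ γ)) where
  hol i := by
    have h1 : (fun z => h (τ ((S'.pull τ ρ hτ).σ i z))) = fun z => h (S'.σ i z) := by
      funext z
      show h (τ (τ.symm (S'.σ i z))) = _
      rw [τ.apply_symm_apply]
    rw [h1]
    exact H.hol i
  add γ e := by rw [hτ, H.add]

theorem Add.of_pull {h : E' → ℂ} {c : Γ → ℂ} (H : Add (S'.pull τ ρ hτ) (fun e => h (τ e)) c) :
    Add S' h (fun γ => c (ρ.symm γ)) where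
  hol i := by
    have h1 : (fun z => h (τ ((S'.pull τ ρ hτ).σ i z))) = fun z => h (S'.σ i z) := by
      funext z
      show h (τ (τ.symm (S'.σ i z))) = _
      rw [τ.apply_symm_apply]
    have h2 := H.hol i
    rw [h1] at h2
    exact h2
  add γ e := by
    have h1 := H.add (ρ.symm γ) (τ.symm e)
    simp only [hτ, τ.apply_symm_apply, ρ.apply_symm_apply] at h1
    exact h1

theorem herm_pull (h h' : E' → ℂ) :
    (S'.pull τ ρ hτ).herm (fun e => h (τ e)) (fun e => h' (τ e)) = S'.herm h h' := by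
  have hP : ∀ i, (S'.pull τ ρ hτ).P i = S'.P i := by
    intro i
    ext z
    constructor
    · rintro ⟨h1, h2⟩
      refine ⟨h1, fun j hj γ w hw h3 => h2 j hj (ρ.symm γ) w hw ?_⟩
      apply τ.injective
      show τ (ρ.symm γ • τ.symm (S'.σ j w)) = τ (τ.symm (S'.σ i z))
      rw [hτ, τ.apply_symm_apply, ρ.apply_symm_apply, τ.apply_symm_apply, h3]
    · rintro ⟨h1, h2⟩
      refine ⟨h1, fun j hj γ w hw h3 => h2 j hj (ρ γ) w hw ?_⟩
      have h4 : τ (γ • τ.symm (S'.σ j w)) = τ (τ.symm (S'.σ i z)) := congrArg τ h3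
      rwa [hτ, τ.apply_symm_apply, τ.apply_symm_apply] at h4
  have hσ : ∀ (u : E' → ℂ) (i : Fin S'.N), (fun z => u (τ ((S'.pull τ ρ hτ).σ i z))) =
      fun z => u (S'.σ i z) := by
    intro u i
    funext z
    show u (τ (τ.symm (S'.σ i z))) = _
    rw [τ.apply_symm_apply]
  show ∑ i : Fin S'.N, _ = ∑ i : Fin S'.N, _
  refine Finset.sum_congr rfl fun i _ => ?_
  rw [hP i]
  refine congrArg _ (funext fun z => ?_)
  have e1 := hσ h i
  have e2 := hσ h' i
  simp only [e1, e2]

/-- the transported marking -/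
def Mark.map {n : ℕ} (M : Mark Γ n) (ρ : Γ ≃* Γ') : Mark Γ' n where
  g k := ρ (M.g k)
  φ k γ := M.φ k (ρ.symm γ)
  hom k a b := by rw [map_mul, M.hom]
  dual k l := by rw [ρ.symm_apply_apply, M.dual]
  complete a ha γ := by
    have h1 := M.complete (fun γ => a (ρ γ)) (fun x y => by rw [map_mul, ha]) (ρ.symm γ)
    simpa using h1

end transport

end Vale.Agent.P281.H64
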