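import Mathlib

/-!
# P281, theorem T-D (helper64): the analytic interface

Compact Riemann surfaces and their families, given by sheets on the universal covering `E` with
its group `Γ`. FROZEN definitions. Everything is on `ℂ` and `ℂ^p = Fin p → ℂ` (sup norm).
-/

open Set Filter Metric MeasureTheory
open scoped Topology ContDiff ComplexConjugate

noncomputable section

namespace Vale.Agent.P281.H64

/-- `ℂ^p`. -/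
abbrev Cm (p : ℕ) : Type := Fin p → ℂ

/-- `∂u/∂z̄` -/
def dbar (u : ℂ → ℂ) (z : ℂ) : ℂ := (fderiv ℝ u z 1 + Complex.I * fderiv ℝ u z Complex.I) / 2

/-- A compact Riemann surface `E / Γ` (`Γ` acts on `E`), given by finitely many sheets
`σ i : D(0,3) → E` of the covering `E → E / Γ`, with holomorphic transition maps, such that the
discs `D(0,1)` cover `E / Γ`. -/
structure Sheets (E Γ : Type) [TopologicalSpace E] [Group Γ] [MulAction Γ E] where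
  N : ℕ
  σ : Fin N → ℂ → E
  map_nhds : ∀ i, ∀ z ∈ ball (0 : ℂ) 3, Filter.map (σ i) (𝓝 z) = 𝓝 (σ i z)
  inj : ∀ i, ∀ z ∈ ball (0 : ℂ) 3, ∀ w ∈ ball (0 : ℂ) 3, ∀ γ : Γ, γ • σ i z = σ i w →
    γ = 1 ∧ z = w
  cover : ∀ e : E, ∃ (γ : Γ) (i : Fin N) (z : ℂ), ‖z‖ < 1 ∧ γ • σ i z = e
  closed : ∀ i, ∀ r : ℝ, r < 3 → IsClosed {e : E | ∃ (γ : Γ) (z : ℂ), ‖z‖ ≤ r ∧ γ • σ i z = e}
  hol : ∀ i j, ∀ z ∈ ball (0 : ℂ) 3, ∀ w ∈ ball (0 : ℂ) 3, ∀ γ : Γ, σ i z = γ • σ j w →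
    ∃ θ : ℂ → ℂ, AnalyticAt ℂ θ z ∧ θ z = w ∧ ∀ᶠ u in 𝓝 z, σ i u = γ • σ j (θ u)

section
variable {E Γ : Type} [TopologicalSpace E] [Group Γ] [MulAction Γ E]

/-- `u : E → ℂ` is smooth. -/
def Sheets.Smooth (S : Sheets E Γ) (u : E → ℂ) : Prop :=
  ∀ (i : Fin S.N) (γ : Γ), ContDiffOn ℝ ∞ (fun z => u (γ • S.σ i z)) (ball 0 3)

/-- `h : E → ℂ` is holomorphic and additive, with periods `c`: `h (γ • e) = h e + c γ`. -/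
structure Add (S : Sheets E Γ) (h : E → ℂ) (c : Γ → ℂ) : Prop where
  hol : ∀ i, DifferentiableOn ℂ (fun z => h (S.σ i z)) (ball 0 3)
  add : ∀ (γ : Γ) (e : E), h (γ • e) = h e + c γ

/-- A smooth `(0,1)`-form `a i dz̄` on `E / Γ`. -/
structure Form01 (S : Sheets E Γ) (a : Fin S.N → ℂ → ℂ) : Prop where
  smooth : ∀ i, ContDiffOn ℝ ∞ (a i) (ball 0 3)
  change : ∀ i j, ∀ z ∈ ball (0 : ℂ) 3, ∀ w ∈ ball (0 : ℂ) 3, ∀ (γ : Γ) (θ : ℂ → ℂ),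
    AnalyticAt ℂ θ z → θ z = w → (∀ᶠ u in 𝓝 z, S.σ i u = γ • S.σ j (θ u)) →
      a i z = a j w * conj (deriv θ z)

/-- A basis `g k` of `Γ^ab / torsion`, with the dual basis `φ k` of `Hom(Γ, ℤ)`. -/
structure Mark (Γ : Type) [Group Γ] (n : ℕ) where
  g : Fin n → Γ
  φ : Fin n → Γ → ℤ
  hom : ∀ k a b, φ k (a * b) = φ k a + φ k b
  dual : ∀ k l, φ k (g l) = if k = l then 1 else 0
  complete : ∀ a : Γ → ℝ, (∀ x y, a (x * y) = a x + a y) → ∀ γ, a γ = ∑ k, a (g k) * φ k γ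

/-- The part of the disc number `i` which is not covered by the previous ones: these sets form a
fundamental domain of `E / Γ`. -/
def Sheets.P (S : Sheets E Γ) (i : Fin S.N) : Set ℂ :=
  {z | ‖z‖ < 1 ∧ ∀ j, j < i → ∀ (γ : Γ) (w : ℂ), ‖w‖ < 1 → γ • S.σ j w ≠ S.σ i z}

/-- The integral over `E / Γ` of the 2-form with density `d i` in the sheet `i`. -/
def Sheets.int (S : Sheets E Γ) (d : Fin S.N → ℂ → ℂ) : ℂ := ∑ i, ∫ z in S.P i, d i z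

/-- `(i / 2) ∫ dh ∧ conj(dh')` for `h`, `h'` holomorphic and additive. -/
def Sheets.herm (S : Sheets E Γ) (h h' : E → ℂ) : ℂ :=
  S.int fun i z => deriv (fun z => h (S.σ i z)) z * conj (deriv (fun z => h' (S.σ i z)) z)

/-- The Riemann surfaces `S`, `S'` (with the same topological covering) have the same smooth
structure and orientation. -/
def Compat (S S' : Sheets E Γ) : Prop :=
  ∀ i j, ∀ z ∈ ball (0 : ℂ) 3, ∀ w ∈ ball (0 : ℂ) 3, ∀ γ : Γ, S.σ i z = γ • S'.σ j w →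
    ∃ ψ : ℂ → ℂ, ContDiffAt ℝ ∞ ψ z ∧ ψ z = w ∧ 0 < (fderiv ℝ ψ z).det ∧
      ∀ᶠ u in 𝓝 z, S.σ i u = γ • S'.σ j (ψ u)

/-- The Riemann surfaces `S`, `S'` have the same complex structure. -/
def HolCompat (S S' : Sheets E Γ) : Prop :=
  ∀ i j, ∀ z ∈ ball (0 : ℂ) 3, ∀ w ∈ ball (0 : ℂ) 3, ∀ γ : Γ, S.σ i z = γ • S'.σ j w →
    ∃ θ : ℂ → ℂ, AnalyticAt ℂ θ z ∧ θ z = w ∧ deriv θ z ≠ 0 ∧
      ∀ᶠ u in 𝓝 z, S.σ i u = γ • S'.σ j (θ u)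

/-- `q : D(v₀, r) → E` is holomorphic and induces an injective map to `E / Γ`. -/
structure DiscIn (S : Sheets E Γ) (q : ℂ → E) (v₀ : ℂ) (r : ℝ) : Prop where
  hol : ∀ v ∈ ball v₀ r, ∀ i, ∀ z ∈ ball (0 : ℂ) 3, ∀ γ : Γ, q v = γ • S.σ i z →
    ∃ θ : ℂ → ℂ, AnalyticAt ℂ θ v ∧ θ v = z ∧ ∀ᶠ u in 𝓝 v, q u = γ • S.σ i (θ u)
  inj : ∀ v ∈ ball v₀ r, ∀ v' ∈ ball v₀ r, ∀ γ : Γ, q v = γ • q v' → v = v'

end

/-- A holomorphic family of compact Riemann surfaces over the open set `T` of `ℂ^p`, with a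
trivialisation of the universal coverings: `σ i t : D(0,3) → E` are the sheets of the surface
number `t`. -/
structure Fam (p : ℕ) (E Γ : Type) [TopologicalSpace E] [Group Γ] [MulAction Γ E] where
  T : Set (Cm p)
  isOpen : IsOpen T
  N : ℕ
  σ : Fin N → Cm p → ℂ → E
  map_nhds : ∀ i, ∀ t ∈ T, ∀ z ∈ ball (0 : ℂ) 3,
    Filter.map (fun q : Cm p × ℂ => (q.1, σ i q.1 q.2)) (𝓝 (t, z)) = 𝓝 (t, σ i t z)
  map_nhds' : ∀ i, ∀ t ∈ T, ∀ z ∈ ball (0 : ℂ) 3, Filter.map (σ i t) (𝓝 z) = 𝓝 (σ i t z)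
  inj : ∀ i, ∀ t ∈ T, ∀ z ∈ ball (0 : ℂ) 3, ∀ w ∈ ball (0 : ℂ) 3, ∀ γ : Γ,
    γ • σ i t z = σ i t w → γ = 1 ∧ z = w
  cover : ∀ t ∈ T, ∀ e : E, ∃ (γ : Γ) (i : Fin N) (z : ℂ), ‖z‖ < 1 ∧ γ • σ i t z = e
  closed : ∀ i, ∀ t ∈ T, ∀ r : ℝ, r < 3 →
    IsClosed {e : E | ∃ (γ : Γ) (z : ℂ), ‖z‖ ≤ r ∧ γ • σ i t z = e}
  hol : ∀ i j, ∀ t ∈ T, ∀ z ∈ ball (0 : ℂ) 3, ∀ w ∈ ball (0 : ℂ) 3, ∀ γ : Γ,
    σ i t z = γ • σ j t w → ∃ θ : Cm p × ℂ → ℂ, AnalyticAt ℂ θ (t, z) ∧ θ (t, z) = w ∧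
      ∀ᶠ q in 𝓝 (t, z), σ i q.1 q.2 = γ • σ j q.1 (θ q)
  smooth : ∀ i j, ∀ t ∈ T, ∀ s ∈ T, ∀ z ∈ ball (0 : ℂ) 3, ∀ w ∈ ball (0 : ℂ) 3, ∀ γ : Γ,
    σ i t z = γ • σ j s w → ∃ ψ : ℂ → ℂ, ContDiffAt ℝ ∞ ψ z ∧ ψ z = w ∧
      0 < (fderiv ℝ ψ z).det ∧ ∀ᶠ u in 𝓝 z, σ i t u = γ • σ j s (ψ u)

section
variable {p : ℕ} {E Γ : Type} [TopologicalSpace E] [Group Γ] [MulAction Γ E]

/-- The Riemann surface number `t`. -/
def Fam.at (𝓕 : Fam p E Γ) (t : Cm p) (ht : t ∈ 𝓕.T) : Sheets E Γ where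
  N := 𝓕.N
  σ i := 𝓕.σ i t
  map_nhds i z hz := 𝓕.map_nhds' i t ht z hz
  inj i z hz w hw γ h := 𝓕.inj i t ht z hz w hw γ h
  cover e := 𝓕.cover t ht e
  closed i r hr := 𝓕.closed i t ht r hr
  hol i j z hz w hw γ h := by
    obtain ⟨θ, h1, h2, h3⟩ := 𝓕.hol i j t ht z hz w hw γ h
    refine ⟨fun u => θ (t, u), ?_, h2, ?_⟩
    · exact AnalyticAt.comp' (f := fun u : ℂ => (t, u)) h1 (by fun_prop)
    · have : Tendsto (fun u : ℂ => (t, u)) (𝓝 z) (𝓝 (t, z)) :=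
        (by fun_prop : Continuous fun u : ℂ => (t, u)).tendsto z
      exact this.eventually h3

theorem Fam.compat (𝓕 : Fam p E Γ) (t s : Cm p) (ht : t ∈ 𝓕.T) (hs : s ∈ 𝓕.T) :
    Compat (𝓕.at t ht) (𝓕.at s hs) :=
  fun i j z hz w hw γ h => 𝓕.smooth i j t ht s hs z hz w hw γ h

end

end Vale.Agent.P281.H64
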