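import Vale.Agent.P281.H64.G2c

/-!
# P281, theorem T-D (helper64): assembly in genus at least two, part 4: change of the local data
-/

open Set Filter Metric MeasureTheory Vale.Agent.P281 Vale.Agent.P281.H713
open scoped Topology ContDiff Manifold ComplexConjugate

set_option linter.unusedSectionVars false

noncomputable section

namespace Vale.Agent.P281.H64

/-! ### Linear algebra -/

/-- the linear map with matrix `A` -/
def linV {g : ℕ} (A : Fin g → Fin g → ℂ) :
    EuclideanSpace ℂ (Fin g) →ₗ[ℂ] EuclideanSpace ℂ (Fin g) where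
  toFun v := WithLp.toLp 2 fun j => ∑ k, A j k * v k
  map_add' v w := by
    rw [← WithLp.toLp_add]
    congr 1
    funext j
    simp [mul_add, Finset.sum_add_distrib]
  map_smul' a v := by
    rw [RingHom.id_apply, ← WithLp.toLp_smul]
    congr 1
    funext j
    show ∑ k, A j k * (a * v k) = a * ∑ k, A j k * v k
    rw [Finset.mul_sum]
    exact Finset.sum_congr rfl fun k _ => by ring

theorem linV_apply {g : ℕ} (A : Fin g → Fin g → ℂ) (v : Fin g → ℂ) :
    linV A (WithLp.toLp 2 v) = WithLp.toLp 2 fun j => ∑ k, A j k * v k := rfl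

section
variable {E Γ : Type} [TopologicalSpace E] [Group Γ] [MulAction Γ E] {S : Sheets E Γ} {n g : ℕ}
  {F : E → Fin g → ℂ} {c : Γ → Fin g → ℂ}

/-- the periods span `V` -/
theorem IsBas.linV_id (h : IsBas S F c) {A : Fin g → Fin g → ℂ}
    (hA : ∀ γ j, ∑ k, A j k * c γ k = c γ j) : linV A = LinearMap.id := by
  have h1 : ∀ j k, A j k = if k = j then 1 else 0 := by
    intro j
    have h2 := h.indep (fun k => A j k - if k = j then 1 else 0) fun γ => by
      simp only [sub_mul, Finset.sum_sub_distrib]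
      rw [hA γ j]
      simp
    intro k
    exact sub_eq_zero.1 (congrFun h2 k)
  apply LinearMap.ext
  intro v
  apply (WithLp.equiv 2 (Fin g → ℂ)).injective
  funext j
  show ∑ k, A j k * v k = v j
  simp [h1]

end

theorem bil_eq {n : ℕ} (B : Matrix (Fin n) (Fin n) ℝ) (x x' : Fin n → ℝ) :
    ∑ k, ∑ l, B k l * x k * x' l = x ⬝ᵥ B.mulVec x' := by
  rw [dotProduct]
  refine Finset.sum_congr rfl fun k _ => ?_
  rw [Matrix.mulVec, dotProduct, Finset.mul_sum]
  refine Finset.sum_congr rfl fun l _ => ?_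
  ring

/-- **Change of the basis** on one surface. `F'`, `c'` is a second family of additive functions,
`ρ : Γ ≃ Γ'`. -/
theorem exists_linV {E Γ : Type} [TopologicalSpace E] [T2Space E] [SimplyConnectedSpace E]
    [Group Γ] [MulAction Γ E] [ContinuousConstSMul Γ E] {S : Sheets E Γ} {g : ℕ}
    {F : E → Fin g → ℂ} {c : Γ → Fin g → ℂ} (h : IsBas S F c)
    (hC2 : ∀ (h : E → ℂ) (c : Γ → ℂ), Add S h c → (∀ γ, (c γ).re = 0) → ∀ e e', h e = h e')
    {F' : E → Fin g → ℂ} {c' : Γ → Fin g → ℂ}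
    (h' : ∀ j, Add S (fun e => F' e j) (fun γ => c' γ j)) :
    ∃ (A : Fin g → Fin g → ℂ) (b : Fin g → ℂ), (∀ γ j, c' γ j = ∑ k, A j k * c γ k) ∧
      ∀ e j, F' e j = ∑ k, A j k * F e k + b j := by
  choose A hA using fun j => h.span _ _ (h' j)
  obtain ⟨e₀⟩ : Nonempty E := inferInstance
  refine ⟨A, fun j => F' e₀ j - ∑ k, A j k * F e₀ k, fun γ j => hA j γ, fun e j => ?_⟩
  have h1 := Add.sum h.add (A j)
  have h2 : Add S (fun e => F' e j) (fun γ => ∑ k, A j k * c γ k) := by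
    have := h' j
    have h3 : (fun γ => c' γ j) = fun γ => ∑ k, A j k * c γ k := funext fun γ => hA j γ
    rwa [h3] at this
  have h4 := h2.diff_const hC2 h1 e e₀
  linear_combination h4

variable {d p : ℕ} {Z Y : Type} [TopologicalSpace Z] [T2Space Z] [ChartedSpace (Cm d) Z]
  [IsManifold 𝓘(ℂ, Cm d) ω Z] [TopologicalSpace Y] [T2Space Y] [ChartedSpace (Cm p) Y]
  [IsManifold 𝓘(ℂ, Cm p) ω Y] {f : Z → Y} {n g : ℕ} {B : Matrix (Fin n) (Fin n) ℝ}

namespace DLoc

/-- comparison of two local data over `y` -/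
theorem compare (I : Inputs) (hf : ContMDiff 𝓘(ℂ, Cm d) 𝓘(ℂ, Cm p) ω f)
    (L L' : DLoc (d := d) (p := p) f B g) {y : Y} (hy : y ∈ L.U) (hy' : y ∈ L'.U) :
    ∃ (τ : L.E ≃ₜ L'.E) (ρ : L.Γ ≃* L'.Γ) (hτ : ∀ γ e, τ (γ • e) = ρ γ • τ e),
      (∀ e, L'.q (L'.χ y) (τ e) = L.q (L.χ y) e) ∧
      HolCompat (L.sh hy) ((L'.sh hy').pull τ ρ hτ) := by
  obtain ⟨τ, ρ, hτ, hq, hol⟩ := I.k d p Z Y f L.E L.Γ L.𝓕 L.q L.χ L'.E L'.Γ L'.𝓕 L'.q L'.χ hf
    L.model L'.model _ (L.hT' hy.2) _ (L'.hT' hy'.2) (by rw [L.left_inv hy, L'.left_inv hy'])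
  refine ⟨τ, ρ, hτ, hq, fun i j z hz w hw γ he => ?_⟩
  have he' : τ (L.𝓕.σ i (L.χ y) z) = ρ γ • L'.𝓕.σ j (L'.χ y) w := by
    have h1 : τ (L.𝓕.σ i (L.χ y) z) = τ (γ • τ.symm (L'.𝓕.σ j (L'.χ y) w)) := congrArg τ he
    rw [hτ, τ.apply_symm_apply] at h1
    exact h1
  obtain ⟨θ, h1, h2, h3, h4⟩ := hol i j z hz w hw (ρ γ) he'
  refine ⟨θ, h1, h2, h3, ?_⟩
  filter_upwards [h4] with u hu
  apply τ.injective
  show τ (L.𝓕.σ i (L.χ y) u) = τ (γ • τ.symm (L'.𝓕.σ j (L'.χ y) (θ u)))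
  rw [hτ, τ.apply_symm_apply, hu]

/-- **change** -/
theorem change (I : Inputs) (hF2 : F2Stmt) (hn : n = 2 * g)
    (hf : ContMDiff 𝓘(ℂ, Cm d) 𝓘(ℂ, Cm p) ω f) (L L' : DLoc (d := d) (p := p) f B g)
    (D D' : (Fin n → ℝ) ≃L[ℝ] EuclideanSpace ℂ (Fin g)) {y : Y} (hy : y ∈ L.U) (hy' : y ∈ L'.U) :
    ∃ (G : EuclideanSpace ℂ (Fin g) ≃L[ℂ] EuclideanSpace ℂ (Fin g)) (b : EuclideanSpace ℂ (Fin g)),
      IsPeriodChange (Qf B) (L.π D y) (L'.π D' y) G ∧ ∀ z, f z = y →
      IsCongr (L'.π D' y) (G (L.α z) + b) (L'.α z) := by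
  obtain ⟨τ, ρ, hτ, hq, hH⟩ := compare I hf L L' hy hy'
  have hbas := L.bas _ hy.2
  have hbas' := L'.bas _ hy'.2
  have hC2 := (I.c2 L.E L.Γ (L.sh hy)).2
  have hC2' := (I.c2 L'.E L'.Γ (L'.sh hy')).2
  -- the functions of `L'` on `L`
  have hadd : ∀ j, Add (L.sh hy) (fun e => L'.F (L'.χ y) (τ e) j)
      (fun γ => L'.c (L'.χ y) (ρ γ) j) := fun j => hH.symm.add ((hbas'.add j).pull (hτ := hτ))
  obtain ⟨A, b, hA, hAF⟩ := exists_linV hbas hC2 hadd
  -- the functions of `L` on `L'`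
  have hadd' : ∀ j, Add (L'.sh hy') (fun e => L.F (L.χ y) (τ.symm e) j)
      (fun γ => L.c (L.χ y) (ρ.symm γ) j) := fun j => by
    have h1 : Add ((L'.sh hy').pull τ ρ hτ) (fun e => (fun e' => L.F (L.χ y) (τ.symm e') j) (τ e))
        (fun γ => L.c (L.χ y) γ j) := by
      have h2 := hH.add (hbas.add j)
      simpa using h2
    exact Add.of_pull (τ := τ) (ρ := ρ) (hτ := hτ) (h := fun e' => L.F (L.χ y) (τ.symm e') j) h1
  obtain ⟨A', b', hA', -⟩ := exists_linV hbas' hC2' hadd'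
  -- `G` and its inverse
  have hGper : ∀ γ, linV A (WithLp.toLp 2 (L.c (L.χ y) γ)) =
      WithLp.toLp 2 (L'.c (L'.χ y) (ρ γ)) := fun γ => by
    rw [linV_apply]
    congr 1
    funext j
    exact (hA γ j).symm
  have hGper' : ∀ γ, linV A' (WithLp.toLp 2 (L'.c (L'.χ y) γ)) =
      WithLp.toLp 2 (L.c (L.χ y) (ρ.symm γ)) := fun γ => by
    rw [linV_apply]
    congr 1
    funext j
    exact (hA' γ j).symm
  have hid : (linV A').comp (linV A) = LinearMap.id := by
    have h1 : (linV A').comp (linV A) = linV fun j k => ∑ i, A' j i * A i k := by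
      apply LinearMap.ext
      intro v
      apply (WithLp.equiv 2 (Fin g → ℂ)).injective
      funext j
      show ∑ i, A' j i * ∑ k, A i k * v k = ∑ k, (∑ i, A' j i * A i k) * v k
      simp only [Finset.mul_sum, Finset.sum_mul]
      rw [Finset.sum_comm]
      exact Finset.sum_congr rfl fun _ _ => Finset.sum_congr rfl fun _ _ => by ring
    rw [h1]
    refine hbas.linV_id fun γ j => ?_
    have h2 := hA' (ρ γ) j
    rw [ρ.symm_apply_apply] at h2
    rw [h2]
    simp only [hA γ, Finset.mul_sum, Finset.sum_mul]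
    rw [Finset.sum_comm]
    exact Finset.sum_congr rfl fun _ _ => Finset.sum_congr rfl fun _ _ => by ring
  have hid' : (linV A).comp (linV A') = LinearMap.id := by
    have h1 : (linV A).comp (linV A') = linV fun j k => ∑ i, A j i * A' i k := by
      apply LinearMap.ext
      intro v
      apply (WithLp.equiv 2 (Fin g → ℂ)).injective
      funext j
      show ∑ i, A j i * ∑ k, A' i k * v k = ∑ k, (∑ i, A j i * A' i k) * v k
      simp only [Finset.mul_sum, Finset.sum_mul]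
      rw [Finset.sum_comm]
      exact Finset.sum_congr rfl fun _ _ => Finset.sum_congr rfl fun _ _ => by ring
    rw [h1]
    refine hbas'.linV_id fun γ j => ?_
    have h2 := hA (ρ.symm γ) j
    rw [ρ.apply_symm_apply] at h2
    rw [h2]
    simp only [hA' γ, Finset.mul_sum, Finset.sum_mul]
    rw [Finset.sum_comm]
    exact Finset.sum_congr rfl fun _ _ => Finset.sum_congr rfl fun _ _ => by ring
  let G : EuclideanSpace ℂ (Fin g) ≃L[ℂ] EuclideanSpace ℂ (Fin g) :=
    (LinearEquiv.ofLinearMap (linV A) (linV A') hid' hid).toContinuousLinearEquiv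
  have hG : ∀ v, G v = linV A v := fun v => rfl
  have hGs : ∀ v, G.symm v = linV A' v := fun v => rfl
  have hπ := π_spec (L := L) hF2 hn D hy
  have hπ' := π_spec (L := L') hF2 hn D' hy'
  -- integral matrix
  set N : Fin n → Fin n → ℤ := fun l k => L'.M.φ l (ρ (L.M.g k)) with hN
  have hGπ : ∀ x, G (L.π D y x) = L'.π D' y fun l => ∑ k, (N l k : ℝ) * x k := by
    intro x
    have e1 : L.π D y x = ∑ k, (x k : ℂ) • (WithLp.toLp 2 (L.c (L.χ y) (L.M.g k)) :
        EuclideanSpace ℂ (Fin g)) := by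
      rw [hπ]
      apply (WithLp.equiv 2 (Fin g → ℂ)).injective
      funext j
      simp [perMap, Finset.sum_apply]
    have e2 : ∀ x' : Fin n → ℝ, L'.π D' y x' = ∑ l, (x' l : ℂ) •
        (WithLp.toLp 2 (L'.c (L'.χ y) (L'.M.g l)) : EuclideanSpace ℂ (Fin g)) := by
      intro x'
      rw [hπ']
      apply (WithLp.equiv 2 (Fin g → ℂ)).injective
      funext j
      simp [perMap, Finset.sum_apply]
    rw [e1, hG, map_sum, e2]
    have e3 : ∀ k, (WithLp.toLp 2 (L'.c (L'.χ y) (ρ (L.M.g k))) : EuclideanSpace ℂ (Fin g)) =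
        ∑ l, ((N l k : ℝ) : ℂ) • (WithLp.toLp 2 (L'.c (L'.χ y) (L'.M.g l)) :
          EuclideanSpace ℂ (Fin g)) := by
      intro k
      rw [hbas'.per_eq (M := L'.M), ← hπ', e2]
    simp only [map_smul, hGper, e3, Finset.smul_sum, smul_smul]
    rw [Finset.sum_comm]
    refine Finset.sum_congr rfl fun l _ => ?_
    rw [← Finset.sum_smul]
    congr 1
    push_cast
    exact Finset.sum_congr rfl fun k _ => by ring
  refine ⟨G, WithLp.toLp 2 b, ⟨fun m => ?_, fun m' => ?_, fun x x' => ?_⟩, fun z hz => ?_⟩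
  · refine ⟨fun l => ∑ k, N l k * m k, ?_⟩
    rw [hGπ]
    congr 1
    funext l
    push_cast
    rfl
  · -- surjectivity
    obtain ⟨γ', hγ'⟩ := L'.M.surj m'
    refine ⟨fun k => L.M.φ k (ρ.symm γ'), ?_⟩
    have h1 := hbas.per_eq (M := L.M) (ρ.symm γ')
    have h2 := hbas'.per_eq (M := L'.M) γ'
    rw [hπ, ← h1, hG, hGper, ρ.apply_symm_apply, h2, ← hπ']
    congr 1
    funext l
    rw [hγ']
  · -- the polarization
    rw [hGπ, hGπ, ContinuousLinearEquiv.symm_apply_apply, ContinuousLinearEquiv.symm_apply_apply]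
    obtain ⟨hB, -⟩ := L.F2_at hF2 hn hy.2
    set NR : Matrix (Fin n) (Fin n) ℝ := Matrix.of fun l k => (N l k : ℝ) with hNR
    have hmul : ∀ x : Fin n → ℝ, (fun l => ∑ k, (N l k : ℝ) * x k) = NR.mulVec x := fun x => rfl
    -- `NR * B * NRᵀ = B`
    have hNB : NR * B * NR.transpose = B := by
      have hform := L.form _ (L.hT' hy.2)
      have hform' := L'.form _ (L'.hT' hy'.2)
      have h3 : HasForm (L'.sh hy') L'.M (NR * B * NR.transpose) := by
        intro h c h' c' H H'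
        have H1 : Add (L.sh hy) (fun e => h (τ e)) (fun γ => c (ρ γ)) :=
          hH.symm.add (H.pull (hτ := hτ))
        have H1' : Add (L.sh hy) (fun e => h' (τ e)) (fun γ => c' (ρ γ)) :=
          hH.symm.add (H'.pull (hτ := hτ))
        have h4 := hform _ _ _ _ H1 H1'
        rw [← (I.e1 L.E L.Γ (L.sh hy)).inv _ hH H1 H1', herm_pull] at h4
        rw [h4]
        have h5 : ∀ {u : L'.E → ℂ} {v : L'.Γ → ℂ}, Add (L'.sh hy') u v → ∀ k,
            (v (ρ (L.M.g k))).re = ∑ l, (N l k : ℝ) * (v (L'.M.g l)).re := by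
          intro u v huv k
          rw [L'.M.complex huv.map_mul, Complex.re_sum]
          refine Finset.sum_congr rfl fun l _ => ?_
          simp [hN]
        have h7 : ∀ {u : L'.E → ℂ} {v : L'.Γ → ℂ}, Add (L'.sh hy') u v →
            (fun k => (v (ρ (L.M.g k))).re) = NR.transpose.mulVec fun l => (v (L'.M.g l)).re := by
          intro u v huv
          funext k
          exact h5 huv k
        rw [bil_eq B (fun k => (c (ρ (L.M.g k))).re) (fun k => (c' (ρ (L.M.g k))).re),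
          bil_eq (NR * B * NR.transpose) (fun k => (c (L'.M.g k)).re)
          (fun k => (c' (L'.M.g k)).re), h7 H, h7 H', ← Matrix.mulVec_mulVec,
          ← Matrix.mulVec_mulVec, Matrix.mulVec_transpose NR (fun k => (c (L'.M.g k)).re),
          ← Matrix.dotProduct_mulVec]
      exact h3.unique (I.c2 L'.E L'.Γ (L'.sh hy')).1 hform'
    have hdet : IsUnit NR.det := by
      have h6 := congrArg Matrix.det hNB
      rw [Matrix.det_mul, Matrix.det_mul, Matrix.det_transpose] at h6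
      rw [isUnit_iff_ne_zero] at hB ⊢
      intro h7
      rw [h7] at h6
      simp at h6
      exact hB h6.symm
    have hNB' : NR.transpose * B⁻¹ * NR = B⁻¹ := by
      have h8 : B⁻¹ = (NR.transpose)⁻¹ * B⁻¹ * NR⁻¹ := by
        conv_lhs => rw [← hNB]
        rw [Matrix.mul_inv_rev, Matrix.mul_inv_rev, Matrix.mul_assoc]
      conv_lhs => rw [h8]
      rw [← Matrix.mul_assoc, ← Matrix.mul_assoc, Matrix.mul_nonsing_inv _ (by
        rw [Matrix.det_transpose]; exact hdet), Matrix.one_mul, Matrix.mul_assoc,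
        Matrix.nonsing_inv_mul _ hdet, Matrix.mul_one]
    rw [hmul, hmul, Qf_eq, Qf_eq]
    conv_rhs => rw [← hNB']
    rw [← Matrix.mulVec_mulVec, ← Matrix.mulVec_mulVec, Matrix.dotProduct_mulVec x' NR.transpose,
      Matrix.vecMul_transpose]
  · -- the Abel-Jacobi maps
    subst hz
    have h1 : L'.q (L'.χ (f z)) (τ (L.pt z)) = z := by rw [hq, L.q_pt hy]
    obtain ⟨m, hm⟩ := congr_aux (L := L') hF2 hn D' (x := z) (e := τ (L.pt z)) hy' h1
    refine ⟨fun i => -m i, ?_⟩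
    have h2 : G (L.α z) + WithLp.toLp 2 b = WithLp.toLp 2 (L'.F (L'.χ (f z)) (τ (L.pt z))) := by
      rw [hG]
      apply (WithLp.equiv 2 (Fin g → ℂ)).injective
      funext j
      exact (hAF (L.pt z) j).symm
    rw [h2, hm]
    have h3 : (fun i => ((-m i : ℤ) : ℝ)) = -fun i => (m i : ℝ) := by
      funext i
      simp
    rw [h3, map_neg]
    abel

end DLoc

end Vale.Agent.P281.H64
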