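import Vale.Agent.P281.H64.G2d

/-!
# P281, theorem T-D (helper64): block G2, the family of Abel-Jacobi maps
-/

open Set Filter Metric MeasureTheory Vale.Agent.P281 Vale.Agent.P281.H713
open scoped Topology ContDiff Manifold ComplexConjugate NNReal

set_option linter.unusedSectionVars false

noncomputable section

namespace Vale.Agent.P281.H64

variable {d p : ℕ} {Z Y : Type} [TopologicalSpace Z] [T2Space Z] [ChartedSpace (Cm d) Z]
  [IsManifold 𝓘(ℂ, Cm d) ω Z] [TopologicalSpace Y] [T2Space Y] [ChartedSpace (Cm p) Y]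
  [IsManifold 𝓘(ℂ, Cm p) ω Y] {f : Z → Y} {n g : ℕ} {B : Matrix (Fin n) (Fin n) ℝ}

/-- **G2**: the local data form a family of curves with maps to polarized tori. -/
theorem g2 (I : Inputs) (hF2 : F2Stmt) (hn : n = 2 * g)
    (hf : ContMDiff 𝓘(ℂ, Cm d) 𝓘(ℂ, Cm p) ω f) {S : Set Y}
    (hL : ∀ y₀ ∉ S, ∃ L : DLoc (d := d) (p := p) f B g, y₀ ∈ L.χ.source ∧ L.χ y₀ ∈ L.T' ∧
      ∀ t ∈ L.T', L.χ.symm t ∉ S) :
    ∃ (U : {y // y ∉ S} → Set Y)
      (π : {y // y ∉ S} → Y → ((Fin n → ℝ) ≃L[ℝ] EuclideanSpace ℂ (Fin g)))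
      (α : {y // y ∉ S} → Z → EuclideanSpace ℂ (Fin g)),
      IsCurveFamily (Cm d) (Cm p) f S (Qf B) U π α := by
  choose L h1 h2 h3 using fun a : {y // y ∉ S} => hL a.1 a.2
  have h4 : ∀ a, a.1 ∈ (L a).U := fun a => ⟨h1 a, h2 a⟩
  choose hB D hD using fun a => (L a).F2_at hF2 hn (h2 a)
  refine ⟨fun a => (L a).U, fun a => (L a).π (D a), fun a => (L a).α, ?_⟩
  constructor
  · constructor
    · intro y
      constructor
      · intro hy
        exact ⟨⟨y, hy⟩, h4 ⟨y, hy⟩⟩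
      · rintro ⟨a, ha⟩
        have h5 := h3 a _ ha.2
        rwa [(L a).left_inv ha] at h5
    · exact fun a => (L a).isOpen_U
    · exact fun a x y hy => DLoc.hol_π hF2 hn (D a) x hy
    · exact fun a y hy => DLoc.polarized hF2 hn (D a) hy
  · intro x hx
    exact DLoc.coord (L := L ⟨f x, hx⟩) hf (h4 ⟨f x, hx⟩)
  · exact fun a x hx => DLoc.lift hF2 hn hf (D a) hx
  · exact fun a y hy => DLoc.nondeg hF2 hn (D a) hy
  · refine ⟨g, fun a q v₀ r hq hy h hh hc G hG => ?_⟩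
    exact DLoc.area (L := L a) hF2 hn hf (D a) hq hy hh hc hG
  · intro a b y hy
    exact DLoc.change I hF2 hn hf (L a) (L b) (D a) (D b) hy.1 hy.2

end Vale.Agent.P281.H64
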