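import Vale.Agent.P281.H64.Spec

/-!
# P281, theorem T-D (helper64): basic facts on sheets
-/

open Set Filter Metric MeasureTheory
open scoped Topology ContDiff ComplexConjugate

noncomputable section

namespace Vale.Agent.P281.H64

variable {E Γ : Type} [TopologicalSpace E] [Group Γ] [MulAction Γ E]

namespace Sheets

variable (S : Sheets E Γ)

theorem contAt (i : Fin S.N) {z : ℂ} (hz : z ∈ ball (0 : ℂ) 3) : ContinuousAt (S.σ i) z :=
  (S.map_nhds i z hz).le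

theorem contOn (i : Fin S.N) : ContinuousOn (S.σ i) (ball 0 3) :=
  fun _ hz => (S.contAt i hz).continuousWithinAt

theorem injOn (i : Fin S.N) : InjOn (S.σ i) (ball 0 3) := fun z hz w hw h =>
  (S.inj i z hz w hw 1 (by rw [one_smul, h])).2

theorem isOpen_image (i : Fin S.N) {U : Set ℂ} (hU : IsOpen U) (hs : U ⊆ ball 0 3) :
    IsOpen (S.σ i '' U) := by
  rw [isOpen_iff_mem_nhds]
  rintro _ ⟨z, hz, rfl⟩
  rw [← S.map_nhds i z (hs hz)]
  exact image_mem_map (hU.mem_nhds hz)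

theorem sub3 {z : ℂ} {r : ℝ} (hr : r ≤ 3) (h : z ∈ ball (0 : ℂ) r) : z ∈ ball (0 : ℂ) 3 :=
  ball_subset_ball hr h

theorem mem3 {z : ℂ} (h : ‖z‖ < 1) : z ∈ ball (0 : ℂ) 3 := by
  rw [mem_ball_zero_iff]
  linarith

theorem mem3' {z : ℂ} {r : ℝ} (hr : r < 3) (h : ‖z‖ ≤ r) : z ∈ ball (0 : ℂ) 3 := by
  rw [mem_ball_zero_iff]
  linarith

include S in
/-- `Γ` acts freely. -/
theorem free {γ : Γ} {e : E} (h : γ • e = e) : γ = 1 := by
  obtain ⟨γ', i, z, hz, rfl⟩ := S.cover e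
  have h1 : (γ'⁻¹ * γ * γ') • S.σ i z = S.σ i z := by
    rw [mul_smul, mul_smul, h, inv_smul_smul]
  have h2 := (S.inj i z (mem3 hz) z (mem3 hz) _ h1).1
  have h3 : γ = γ' * (γ'⁻¹ * γ * γ') * γ'⁻¹ := by group
  rw [h3, h2]
  group

include S in
theorem eq_of_smul_eq {γ γ' : Γ} {e : E} (h : γ • e = γ' • e) : γ = γ' := by
  have h1 : (γ'⁻¹ * γ) • e = e := by rw [mul_smul, h, inv_smul_smul]
  have h2 := S.free h1
  rw [inv_mul_eq_one] at h2
  exact h2.symm

section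
variable [ContinuousConstSMul Γ E]

theorem map_nhds_smul (γ : Γ) (i : Fin S.N) {z : ℂ} (hz : z ∈ ball (0 : ℂ) 3) :
    Filter.map (fun u => γ • S.σ i u) (𝓝 z) = 𝓝 (γ • S.σ i z) := by
  have h1 : (fun u => γ • S.σ i u) = (fun e : E => γ • e) ∘ S.σ i := rfl
  rw [h1, ← Filter.map_map, S.map_nhds i z hz]
  exact (Homeomorph.smul γ).map_nhds_eq _

theorem contAt_smul (γ : Γ) (i : Fin S.N) {z : ℂ} (hz : z ∈ ball (0 : ℂ) 3) :
    ContinuousAt (fun u => γ • S.σ i u) z := (S.map_nhds_smul γ i hz).le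

theorem isOpen_image_smul (γ : Γ) (i : Fin S.N) {U : Set ℂ} (hU : IsOpen U) (hs : U ⊆ ball 0 3) :
    IsOpen ((fun u => γ • S.σ i u) '' U) := by
  rw [isOpen_iff_mem_nhds]
  rintro _ ⟨z, hz, rfl⟩
  rw [← S.map_nhds_smul γ i (hs hz)]
  exact image_mem_map (hU.mem_nhds hz)

/-- The sheet `γ • σ i`, as a local homeomorphism from `ℂ` to `E`. -/
def ph (γ : Γ) (i : Fin S.N) : OpenPartialHomeomorph ℂ E :=
  OpenPartialHomeomorph.ofContinuousOpenRestrict
    (InjOn.toPartialEquiv (fun z => γ • S.σ i z) (ball 0 3)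
      ((MulAction.injective γ).comp_injOn (S.injOn i)))
    (fun z hz => (S.contAt_smul γ i hz).continuousWithinAt)
    (by
      rw [IsOpenMap]
      intro U hU
      obtain ⟨V, hV, rfl⟩ := isOpen_induced_iff.1 hU
      have h1 : ((ball (0 : ℂ) 3).domRestrict fun z => γ • S.σ i z) '' (Subtype.val ⁻¹' V) =
          (fun z => γ • S.σ i z) '' (V ∩ ball 0 3) := by
        ext e
        constructor
        · rintro ⟨⟨z, hz⟩, hzV, rfl⟩
          exact ⟨z, ⟨hzV, hz⟩, rfl⟩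
        · rintro ⟨z, ⟨hzV, hz⟩, rfl⟩
          exact ⟨⟨z, hz⟩, hzV, rfl⟩
      have h2 := S.isOpen_image_smul γ i (hV.inter isOpen_ball) inter_subset_right
      rw [← h1] at h2
      exact h2)
    isOpen_ball

@[simp] theorem ph_apply (γ : Γ) (i : Fin S.N) (z : ℂ) : S.ph γ i z = γ • S.σ i z := rfl

@[simp] theorem ph_source (γ : Γ) (i : Fin S.N) : (S.ph γ i).source = ball 0 3 := rfl

theorem ph_target (γ : Γ) (i : Fin S.N) :
    (S.ph γ i).target = (fun z => γ • S.σ i z) '' ball 0 3 := rfl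

/-- the coordinate near `e` -/
theorem exists_ph (e : E) : ∃ (γ : Γ) (i : Fin S.N) (z : ℂ), ‖z‖ < 1 ∧ S.ph γ i z = e ∧
    e ∈ (S.ph γ i).target := by
  obtain ⟨γ, i, z, hz, rfl⟩ := S.cover e
  exact ⟨γ, i, z, hz, rfl, z, mem3 hz, rfl⟩

/-- `E` is a surface. -/
@[implicit_reducible] def charted : ChartedSpace ℂ E where
  atlas := {φ | ∃ γ i, φ = (S.ph γ i).symm}
  chartAt e := (S.ph (S.exists_ph e).choose (S.exists_ph e).choose_spec.choose).symm
  mem_chart_source e := (S.exists_ph e).choose_spec.choose_spec.choose_spec.2.2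
  chart_mem_atlas e := ⟨_, _, rfl⟩

include S in
theorem locPathConnected : LocallyPathConnectedSpace E :=
  @ChartedSpace.locallyPathConnectedSpace ℂ E _ _ S.charted _

include S in
theorem locallyCompact : LocallyCompactSpace E :=
  @ChartedSpace.locallyCompactSpace ℂ E _ _ S.charted _

end

/-- transition maps between arbitrary sheets -/
theorem trans {i j : Fin S.N} {z w : ℂ} {γ γ' : Γ} (hz : z ∈ ball (0 : ℂ) 3)
    (hw : w ∈ ball (0 : ℂ) 3) (h : γ • S.σ i z = γ' • S.σ j w) : ∃ θ : ℂ → ℂ, AnalyticAt ℂ θ z ∧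
      θ z = w ∧ ∀ᶠ u in 𝓝 z, γ • S.σ i u = γ' • S.σ j (θ u) := by
  have h0 : S.σ i z = (γ⁻¹ * γ') • S.σ j w := by rw [mul_smul, ← h, inv_smul_smul]
  obtain ⟨θ, h1, h2, h3⟩ := S.hol i j z hz w hw _ h0
  refine ⟨θ, h1, h2, ?_⟩
  filter_upwards [h3] with u hu
  rw [hu, mul_smul, smul_inv_smul]

/-- the transition maps are unique -/
theorem trans_unique {i j : Fin S.N} {z w : ℂ} {γ : Γ} (hw : w ∈ ball (0 : ℂ) 3) {θ θ' : ℂ → ℂ}
    (hc : ContinuousAt θ z) (hc' : ContinuousAt θ' z) (h2 : θ z = w) (h2' : θ' z = w)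
    (h3 : ∀ᶠ u in 𝓝 z, S.σ i u = γ • S.σ j (θ u))
    (h3' : ∀ᶠ u in 𝓝 z, S.σ i u = γ • S.σ j (θ' u)) : θ =ᶠ[𝓝 z] θ' := by
  have h4 : ∀ᶠ u in 𝓝 z, θ u ∈ ball (0 : ℂ) 3 := hc.eventually (by
    rw [h2]; exact isOpen_ball.mem_nhds hw)
  have h4' : ∀ᶠ u in 𝓝 z, θ' u ∈ ball (0 : ℂ) 3 := hc'.eventually (by
    rw [h2']; exact isOpen_ball.mem_nhds hw)
  filter_upwards [h3, h3', h4, h4'] with u a b c d
  rw [a] at b
  exact S.injOn j c d ((MulAction.injective γ) b)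

/-- a transition map has nonzero derivative -/
theorem trans_deriv {i j : Fin S.N} {z w : ℂ} {γ : Γ} (hz : z ∈ ball (0 : ℂ) 3)
    (hw : w ∈ ball (0 : ℂ) 3) {θ : ℂ → ℂ} (h1 : AnalyticAt ℂ θ z) (h2 : θ z = w)
    (h3 : ∀ᶠ u in 𝓝 z, S.σ i u = γ • S.σ j (θ u)) : deriv θ z ≠ 0 := by
  have h0 : S.σ j w = γ⁻¹ • S.σ i z := by rw [h3.self_of_nhds, h2, inv_smul_smul]
  obtain ⟨θ', k1, k2, k3⟩ := S.hol j i w hw z hz _ h0
  have h4 : ∀ᶠ u in 𝓝 z, S.σ j (θ u) = γ⁻¹ • S.σ i (θ' (θ u)) :=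
    h1.continuousAt.eventually (by rw [h2]; exact k3)
  have hc : ContinuousAt (fun u => θ' (θ u)) z :=
    ContinuousAt.comp (f := θ) (g := θ') (by rw [h2]; exact k1.continuousAt) h1.continuousAt
  have h5 : ∀ᶠ u in 𝓝 z, θ' (θ u) ∈ ball (0 : ℂ) 3 := hc.eventually (by
    show ∀ᶠ y in 𝓝 (θ' (θ z)), y ∈ ball (0 : ℂ) 3
    rw [h2, k2]; exact isOpen_ball.mem_nhds hz)
  have h6 : (fun u => θ' (θ u)) =ᶠ[𝓝 z] fun u => u := by
    filter_upwards [h3, h4, h5, isOpen_ball.mem_nhds hz] with u a b c d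
    rw [b, smul_inv_smul] at a
    exact (S.injOn i d c a).symm
  have h7 : HasDerivAt (fun u => θ' (θ u)) (deriv θ' (θ z) * deriv θ z) z :=
    HasDerivAt.comp z (by rw [h2]; exact k1.differentiableAt.hasDerivAt)
      h1.differentiableAt.hasDerivAt
  have h8 := h7.unique ((hasDerivAt_id z).congr_of_eventuallyEq h6)
  intro h9
  rw [h9, mul_zero] at h8
  exact zero_ne_one h8

end Sheets

/-- an additive function is differentiable in all the sheets -/
theorem Add.hol' {S : Sheets E Γ} {h : E → ℂ} {c : Γ → ℂ} (H : Add S h c) (γ : Γ) (i : Fin S.N) :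
    DifferentiableOn ℂ (fun z => h (γ • S.σ i z)) (ball 0 3) := by
  have h1 : (fun z => h (γ • S.σ i z)) = fun z => h (S.σ i z) + c γ := by
    funext z
    rw [H.add]
  rw [h1]
  exact (H.hol i).add_const _

theorem Add.analyticAt {S : Sheets E Γ} {h : E → ℂ} {c : Γ → ℂ} (H : Add S h c) (γ : Γ)
    (i : Fin S.N) {z : ℂ} (hz : z ∈ ball (0 : ℂ) 3) : AnalyticAt ℂ (fun z => h (γ • S.σ i z)) z :=
  (Add.hol' H γ i).analyticAt (isOpen_ball.mem_nhds hz)

theorem Add.continuous [ContinuousConstSMul Γ E] {S : Sheets E Γ} {h : E → ℂ} {c : Γ → ℂ}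
    (H : Add S h c) : Continuous h := by
  rw [continuous_iff_continuousAt]
  intro e
  obtain ⟨γ, i, z, hz, rfl⟩ := S.cover e
  have h1 : ContinuousAt (fun u => h (γ • S.σ i u)) z :=
    ((Add.hol' H γ i).differentiableAt (isOpen_ball.mem_nhds (Sheets.mem3 hz))).continuousAt
  have h2 : Tendsto (h ∘ fun u => γ • S.σ i u) (𝓝 z) (𝓝 (h (γ • S.σ i z))) := h1
  rw [← Filter.tendsto_map'_iff, S.map_nhds_smul γ i (Sheets.mem3 hz)] at h2
  exact h2

theorem Add.map_one {S : Sheets E Γ} {h : E → ℂ} {c : Γ → ℂ} (H : Add S h c) [Nonempty E] :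
    c 1 = 0 := by
  obtain ⟨e⟩ := ‹Nonempty E›
  have := H.add 1 e
  rw [one_smul] at this
  simpa using this

theorem Add.map_mul {S : Sheets E Γ} {h : E → ℂ} {c : Γ → ℂ} (H : Add S h c) [Nonempty E]
    (a b : Γ) : c (a * b) = c a + c b := by
  obtain ⟨e⟩ := ‹Nonempty E›
  have h1 := H.add (a * b) e
  rw [mul_smul, H.add, H.add] at h1
  linear_combination -h1

theorem Add.lin {S : Sheets E Γ} {h h' : E → ℂ} {c c' : Γ → ℂ} (H : Add S h c) (H' : Add S h' c')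
    (a : ℂ) : Add S (fun e => a * h e + h' e) (fun γ => a * c γ + c' γ) where
  hol i := ((H.hol i).const_mul a).add (H'.hol i)
  add γ e := by rw [H.add, H'.add]; ring

theorem Add.const (S : Sheets E Γ) (b : ℂ) : Add S (fun _ => b) (fun _ => 0) where
  hol i := differentiableOn_const b
  add γ e := by simp

theorem Add.sum {S : Sheets E Γ} {g : ℕ} {F : E → Fin g → ℂ} {c : Γ → Fin g → ℂ}
    (H : ∀ j, Add S (fun e => F e j) (fun γ => c γ j)) (s : Fin g → ℂ) :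
    Add S (fun e => ∑ j, s j * F e j) (fun γ => ∑ j, s j * c γ j) where
  hol i := DifferentiableOn.fun_sum fun j _ => ((H j).hol i).const_mul (s j)
  add γ e := by
    rw [← Finset.sum_add_distrib]
    refine Finset.sum_congr rfl fun j _ => ?_
    rw [(H j).add]
    ring

end Vale.Agent.P281.H64
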