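import Vale.Agent.P281.H64.SpecG
import Vale.Agent.P281.H64.Base
import Vale.Agent.P281.H64.Cov

/-!
# P281, theorem T-D (helper64): block K, two models at the same fibre
-/

open Set Filter Metric MeasureTheory Vale.Agent.P281 Vale.Agent.P281.H713
open scoped Topology ContDiff Manifold ComplexConjugate

noncomputable section

namespace Vale.Agent.P281.H64

theorem contMDiffAt_of_slice {n p : ℕ} {Z : Type} [TopologicalSpace Z] [ChartedSpace (Cm n) Z]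
    {F : Cm p × ℂ → Z} {t : Cm p} {z : ℂ}
    (h : ContMDiffAt 𝓘(ℂ, Cm p × ℂ) 𝓘(ℂ, Cm n) ω F (t, z)) :
    ContMDiffAt 𝓘(ℂ, ℂ) 𝓘(ℂ, Cm n) ω (fun u => F (t, u)) z := by
  have h1 : ContMDiffAt 𝓘(ℂ, ℂ) 𝓘(ℂ, Cm p × ℂ) ω (fun u : ℂ => (t, u)) z :=
    ContDiffAt.contMDiffAt (by fun_prop)
  exact ContMDiffAt.comp z (g := F) (f := fun u : ℂ => (t, u)) h h1

theorem K_aux {n p : ℕ} {Z Y : Type} [TopologicalSpace Z] [ChartedSpace (Cm n) Z]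
    [IsManifold 𝓘(ℂ, Cm n) ω Z] [TopologicalSpace Y] [ChartedSpace (Cm p) Y] {f : Z → Y}
    {E Γ : Type} [TopologicalSpace E] [Group Γ] [MulAction Γ E] [ContinuousConstSMul Γ E]
    {𝓕 : Fam p E Γ} {q : Cm p → E → Z} {χ : OpenPartialHomeomorph Y (Cm p)}
    {E' Γ' : Type} [TopologicalSpace E'] [Group Γ'] [MulAction Γ' E'] [ContinuousConstSMul Γ' E']
    {𝓕' : Fam p E' Γ'} {q' : Cm p → E' → Z} {χ' : OpenPartialHomeomorph Y (Cm p)}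
    (M : Model (n := n) f 𝓕 χ q) (M' : Model (n := n) f 𝓕' χ' q') {t : Cm p} (ht : t ∈ 𝓕.T)
    {t' : Cm p} (ht' : t' ∈ 𝓕'.T) (hy : χ.symm t = χ'.symm t') {τ : E → E'} (hτ : Continuous τ)
    (hq : ∀ e, q' t' (τ e) = q t e) {i : Fin 𝓕.N} {j : Fin 𝓕'.N} {z w : ℂ}
    (hz : z ∈ ball (0 : ℂ) 3) (hw : w ∈ ball (0 : ℂ) 3) {γ : Γ'}
    (he : τ (𝓕.σ i t z) = γ • 𝓕'.σ j t' w) : ∃ θ : ℂ → ℂ, AnalyticAt ℂ θ z ∧ θ z = w ∧
      ∀ᶠ u in 𝓝 z, τ (𝓕.σ i t u) = γ • 𝓕'.σ j t' (θ u) := by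
  have hχ' : χ'.symm t' ∈ χ'.source := χ'.map_target (M'.sub ht')
  have hft : ∀ e, χ' (f (q t e)) = t' := fun e => by
    rw [M.fib t ht, hy, χ'.right_inv (M'.sub ht')]
  have hpt : q t (𝓕.σ i t z) = q' t' (𝓕'.σ j t' w) := by
    rw [← hq, he]
    exact ((M'.eq t' ht' _ _).2 ⟨γ, rfl⟩).symm
  obtain ⟨ζ, hζ, hζw, hζe⟩ := M'.coord j t' ht' w hw
  rw [← hpt] at hζ hζw hζe
  have hqh := contMDiffAt_of_slice (M.hol i t ht z hz)
  have hcomp : ContMDiffAt 𝓘(ℂ, ℂ) 𝓘(ℂ, ℂ) ω (fun u => ζ (q t (𝓕.σ i t u))) z :=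
    ContMDiffAt.comp z (g := ζ) (f := fun u => q t (𝓕.σ i t u)) hζ hqh
  have han : AnalyticAt ℂ (fun u => ζ (q t (𝓕.σ i t u))) z := by
    exact hcomp.contDiffAt.analyticAt
  refine ⟨fun u => ζ (q t (𝓕.σ i t u)), han, hζw, ?_⟩
  -- the group element is locally constant
  have hev : ∀ᶠ u in 𝓝 z, q' t' (𝓕'.σ j t' (ζ (q t (𝓕.σ i t u)))) = q t (𝓕.σ i t u) := by
    have h1 := hqh.continuousAt.eventually hζe
    filter_upwards [h1] with u hu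
    have h2 : χ' (f (q t (𝓕.σ i t u))) = t' := hft _
    rw [h2] at hu
    exact hu
  have hc1 : ContinuousAt (fun u => τ (𝓕.σ i t u)) z :=
    hτ.continuousAt.comp ((𝓕.map_nhds' i t ht z hz).le)
  have hopen : (fun v => γ • 𝓕'.σ j t' v) '' ball 0 3 ∈ 𝓝 (γ • 𝓕'.σ j t' w) :=
    ((𝓕'.at t' ht').isOpen_image_smul γ j isOpen_ball subset_rfl).mem_nhds ⟨w, hw, rfl⟩
  have h4 : ∀ᶠ u in 𝓝 z, τ (𝓕.σ i t u) ∈ (fun v => γ • 𝓕'.σ j t' v) '' ball 0 3 :=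
    hc1.eventually (by
      show ∀ᶠ v in 𝓝 (τ (𝓕.σ i t z)), v ∈ _
      rw [he]; exact hopen)
  have h5 : ∀ᶠ u in 𝓝 z, ζ (q t (𝓕.σ i t u)) ∈ ball (0 : ℂ) 3 :=
    han.continuousAt.eventually (by
      show ∀ᶠ v in 𝓝 (ζ (q t (𝓕.σ i t z))), v ∈ ball (0 : ℂ) 3
      rw [hζw]; exact isOpen_ball.mem_nhds hw)
  filter_upwards [hev, h4, h5] with u a b c
  obtain ⟨v, hv, hve⟩ := b
  simp only at hve
  have h6 : q' t' (𝓕'.σ j t' v) = q' t' (𝓕'.σ j t' (ζ (q t (𝓕.σ i t u)))) := by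
    rw [a, ← hq, ← hve]
    exact (M'.eq t' ht' _ _).2 ⟨γ, rfl⟩
  obtain ⟨γ₂, hγ₂⟩ := (M'.eq t' ht' _ _).1 h6
  obtain ⟨-, h8⟩ := 𝓕'.inj j t' ht' v hv _ c γ₂ hγ₂
  rw [← hve, h8]

/-- **K** -/
theorem k : KStmt := by
  intro n p Z Y _ _ _ _ _ _ _ _ f E Γ _ _ _ _ _ _ 𝓕 q χ E' Γ' _ _ _ _ _ _ 𝓕' q' χ' hf M M' t ht
    t' ht' hy
  have : LocallyPathConnectedSpace E := (𝓕.at t ht).locPathConnected
  have : LocallyPathConnectedSpace E' := (𝓕'.at t' ht').locPathConnected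
  have hχ' : χ'.symm t' ∈ χ'.source := χ'.map_target (M'.sub ht')
  have hcov := M.cov t ht
  have hcov' : IsCoveringMap fun e : E' => (⟨q' t' e, by
      show f (q' t' e) = χ.symm t
      rw [M'.fib t' ht', hy]⟩ : f ⁻¹' {χ.symm t}) := by
    exact (M'.cov t' ht').homeomorph_comp
      (Homeomorph.setCongr (by rw [hy] : f ⁻¹' {χ'.symm t'} = f ⁻¹' {χ.symm t}))
  obtain ⟨e₀⟩ : Nonempty E := inferInstance
  obtain ⟨e₀', he₀'⟩ : ∃ e₀' : E', q' t' e₀' = q t e₀ := by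
    have h1 : χ' (f (q t e₀)) = t' := by rw [M.fib t ht, hy, χ'.right_inv (M'.sub ht')]
    have h2 := M'.surj (q t e₀) (by rw [M.fib t ht, hy]; exact hχ') (by rw [h1]; exact ht')
    rw [h1] at h2
    exact h2
  obtain ⟨τ, ρ, h1, h2⟩ := iso_of_cov (Γ := Γ) (Γ' := Γ') hcov hcov' (fun e e₂ => by
      rw [← M.eq t ht e e₂, Subtype.ext_iff]) (fun e e₂ => by
      rw [← M'.eq t' ht' e e₂, Subtype.ext_iff]) (fun γ e h => (𝓕.at t ht).free h)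
      (fun γ e h => (𝓕'.at t' ht').free h) (e₀ := e₀) (e₀' := e₀') (Subtype.ext he₀'.symm)
  have h3 : ∀ e, q' t' (τ e) = q t e := fun e => congrArg Subtype.val (h2 e)
  refine ⟨τ, ρ, h1, h3, fun i j z hz w hw γ he => ?_⟩
  obtain ⟨θ, a1, a2, a3⟩ := K_aux M M' ht ht' hy τ.continuous h3 hz hw he
  refine ⟨θ, a1, a2, ?_, a3⟩
  -- the inverse map
  have h4 : ∀ e, q t (τ.symm e) = q' t' e := fun e => by rw [← h3, τ.apply_symm_apply]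
  have h5 : τ.symm (𝓕'.σ j t' w) = ρ.symm γ⁻¹ • 𝓕.σ i t z := by
    rw [Homeomorph.symm_apply_eq, h1, he, ρ.apply_symm_apply, inv_smul_smul]
  obtain ⟨θ', b1, b2, b3⟩ := K_aux M' M ht' ht hy.symm τ.symm.continuous h4 hw hz h5
  have h6 : ∀ᶠ u in 𝓝 z, τ.symm (𝓕'.σ j t' (θ u)) = ρ.symm γ⁻¹ • 𝓕.σ i t (θ' (θ u)) :=
    a1.continuousAt.eventually (by rw [a2]; exact b3)
  have hc : ContinuousAt (fun u => θ' (θ u)) z :=
    ContinuousAt.comp (f := θ) (g := θ') (by rw [a2]; exact b1.continuousAt) a1.continuousAt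
  have h7 : ∀ᶠ u in 𝓝 z, θ' (θ u) ∈ ball (0 : ℂ) 3 := hc.eventually (by
    show ∀ᶠ y in 𝓝 (θ' (θ z)), y ∈ ball (0 : ℂ) 3
    rw [a2, b2]; exact isOpen_ball.mem_nhds hz)
  have h8 : (fun u => θ' (θ u)) =ᶠ[𝓝 z] fun u => u := by
    filter_upwards [a3, h6, h7, isOpen_ball.mem_nhds hz] with u a b c d
    rw [Homeomorph.symm_apply_eq, h1, ρ.apply_symm_apply] at b
    rw [b, smul_inv_smul] at a
    exact ((𝓕.at t ht).injOn i d c (τ.injective a)).symm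
  have h9 : HasDerivAt (fun u => θ' (θ u)) (deriv θ' (θ z) * deriv θ z) z :=
    HasDerivAt.comp z (by rw [a2]; exact b1.differentiableAt.hasDerivAt)
      a1.differentiableAt.hasDerivAt
  have h10 := h9.unique ((hasDerivAt_id z).congr_of_eventuallyEq h8)
  intro h11
  rw [h11, mul_zero] at h10
  exact zero_ne_one h10

end Vale.Agent.P281.H64
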