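import Vale.Agent.P281.H64.Defs

/-!
# P281, theorem T-D (helper64): statements of the analytic blocks (FROZEN)

All the statements are about `E`, `Γ` with
`[T2Space E] [SimplyConnectedSpace E] [ContinuousConstSMul Γ E]` and sheets `S : Sheets E Γ` (one
compact Riemann surface) or `𝓕 : Fam p E Γ` (a family).
-/

open Set Filter Metric MeasureTheory
open scoped Topology ContDiff ComplexConjugate

noncomputable section

namespace Vale.Agent.P281.H64

/-! ### Block C: Hodge theory of one compact Riemann surface -/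

/-- **C1** (Hodge decomposition): every smooth `(0,1)`-form is `∂̄v + conj(dh)`, `v` a smooth
function on the surface, `h` holomorphic and additive (`dh` is a holomorphic 1-form).
Proof: `L²` forms = `⊕_i L²(P i)`; orthogonal projection on the closure of `{∂̄v}`; the orthogonal
part is antiholomorphic by Weyl's lemma (`P271/H408/Weyl.lean`), primitive on the simply connected
`E`; the range is closed: if `∂̄v_k → r` in `L²`, locally solve `∂̄ρ = r` by the Cauchy transform;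
`v_k` minus constants is bounded in `L²` (otherwise normalise, the limit is holomorphic on `E/Γ`,
hence constant), a subsequence converges (Montel) to `v` with `∂̄v = r`, smooth if `r` is. -/
def C1Stmt : Prop :=
  ∀ (E Γ : Type) [TopologicalSpace E] [T2Space E] [SimplyConnectedSpace E] [Group Γ]
    [MulAction Γ E] [ContinuousConstSMul Γ E] (S : Sheets E Γ) (a : Fin S.N → ℂ → ℂ),
    Form01 S a → ∃ (v h : E → ℂ) (c : Γ → ℂ), S.Smooth v ∧ (∀ (γ : Γ) e, v (γ • e) = v e) ∧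
      Add S h c ∧ ∀ i, ∀ z ∈ ball (0 : ℂ) 3,
        a i z = dbar (fun z => v (S.σ i z)) z + conj (deriv (fun z => h (S.σ i z)) z)

/-- **C2**: existence of additive functions with given real periods (from C1: `a = ∂̄u₀`, `u₀` a smooth
real additive function given by a partition of unity; then `u₀ - v - conj h + h`), and uniqueness
(maximum principle). -/
def C2Stmt : Prop :=
  ∀ (E Γ : Type) [TopologicalSpace E] [T2Space E] [SimplyConnectedSpace E] [Group Γ]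
    [MulAction Γ E] [ContinuousConstSMul Γ E] (S : Sheets E Γ),
    (∀ a : Γ → ℝ, (∀ x y, a (x * y) = a x + a y) → ∃ (h : E → ℂ) (c : Γ → ℂ), Add S h c ∧
      ∀ γ, (c γ).re = a γ) ∧
    ∀ (h : E → ℂ) (c : Γ → ℂ), Add S h c → (∀ γ, (c γ).re = 0) → ∀ e e', h e = h e'

/-- **C3**: a meromorphic function with one simple pole at `x = σ i z₀`, if all the holomorphic forms
vanish at `x` (from C1 with `a = ∂̄(χ / (z - z₀))`, and Stokes: `‖dh‖² = 0`). -/
def C3Stmt : Prop :=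
  ∀ (E Γ : Type) [TopologicalSpace E] [T2Space E] [SimplyConnectedSpace E] [Group Γ]
    [MulAction Γ E] [ContinuousConstSMul Γ E] (S : Sheets E Γ) (i : Fin S.N) (z₀ : ℂ),
    ‖z₀‖ < 1 → (∀ h c, Add S h c → deriv (fun z => h (S.σ i z)) z₀ = 0) →
    ∃ (m : E → ℂ) (k : ℂ → ℂ), (∀ (γ : Γ) e, m (γ • e) = m e) ∧
      (∀ j, ∀ z ∈ ball (0 : ℂ) 3, (∀ γ : Γ, γ • S.σ i z₀ ≠ S.σ j z) →
        AnalyticAt ℂ (fun z => m (S.σ j z)) z) ∧
      AnalyticAt ℂ k z₀ ∧ ∀ᶠ z in 𝓝[≠] z₀, m (S.σ i z) = (z - z₀)⁻¹ + k z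

/-! ### Block F: groups and linear algebra -/

/-- **F1**: `Γ` is finitely generated, and `Γ^ab / torsion` has a basis (unique rank). -/
def F1Stmt : Prop :=
  (∀ (E Γ : Type) [TopologicalSpace E] [T2Space E] [SimplyConnectedSpace E] [Group Γ]
    [MulAction Γ E] [ContinuousConstSMul Γ E] (_ : Sheets E Γ), ∃ n, Nonempty (Mark Γ n)) ∧
  ∀ (Γ : Type) [Group Γ] (n n' : ℕ), Mark Γ n → Mark Γ n' → n = n'

/-- `F` is a basis of the holomorphic additive functions modulo constants, with periods `c`. -/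
structure IsBas {E Γ : Type} [TopologicalSpace E] [Group Γ] [MulAction Γ E] (S : Sheets E Γ)
    {g : ℕ} (F : E → Fin g → ℂ) (c : Γ → Fin g → ℂ) : Prop where
  add : ∀ j, Add S (fun e => F e j) (fun γ => c γ j)
  indep : ∀ s : Fin g → ℂ, (∀ γ, ∑ j, s j * c γ j = 0) → s = 0
  span : ∀ h b, Add S h b → ∃ s : Fin g → ℂ, ∀ γ, b γ = ∑ j, s j * c γ j

/-! ### Block D: holomorphic dependence on the parameter -/

/-- **D**: near `t₀` there are bases of the additive functions which depend holomorphically on `t`.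
Proof: `n` is even and `g = n / 2` periods `c(γ_1), …, c(γ_g)` are coordinates at `t₀`; compactness
(Montel on the sheets, `E` connected by the discs): bounded sequences of additive functions for
`t_k → t₀` have limits; so these periods are coordinates for `t` near `t₀`; `F t` := the dual basis,
normalised by `F t (σ i₀ t 0) = 0`, bounded; the difference quotients in the sheets
`(F t (σ i t z) - F t₀ (σ i t₀ z)) / s`, `t = t₀ + s v`, are bounded (otherwise normalise) with a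
unique limit, so `F` is separately differentiable, and continuous; Osgood. -/
def DStmt : Prop :=
  ∀ (p : ℕ) (E Γ : Type) [TopologicalSpace E] [T2Space E] [SimplyConnectedSpace E] [Group Γ]
    [MulAction Γ E] [ContinuousConstSMul Γ E] (𝓕 : Fam p E Γ) (n : ℕ) (_ : Mark Γ n),
    ∀ t₀ ∈ 𝓕.T, ∃ (g : ℕ) (T' : Set (Cm p)) (hT' : T' ⊆ 𝓕.T) (F : Cm p → E → Fin g → ℂ)
      (c : Cm p → Γ → Fin g → ℂ), n = 2 * g ∧ IsOpen T' ∧ t₀ ∈ T' ∧
      (∀ (t : Cm p) (ht : t ∈ T'), IsBas (𝓕.at t (hT' ht)) (F t) (c t)) ∧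
      (∀ i, ∀ t ∈ T', ∀ z ∈ ball (0 : ℂ) 3, ∀ j,
        AnalyticAt ℂ (fun q : Cm p × ℂ => F q.1 (𝓕.σ i q.1 q.2) j) (t, z)) ∧
      ∀ γ j, ∀ t ∈ T', AnalyticAt ℂ (fun s => c s γ j) t

/-- **D0** (genus `0`): if `n = 0`, near `t₀` there are meromorphic functions `m t` with one simple
pole, at the centre of the sheet `i₀`, which depend holomorphically on `t`. -/
def D0Stmt : Prop :=
  ∀ (p : ℕ) (E Γ : Type) [TopologicalSpace E] [T2Space E] [SimplyConnectedSpace E] [Group Γ]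
    [MulAction Γ E] [ContinuousConstSMul Γ E] (𝓕 : Fam p E Γ) (_ : Mark Γ 0),
    ∀ t₀ ∈ 𝓕.T, ∀ i₀ : Fin 𝓕.N, ∃ (T' : Set (Cm p)) (m : Cm p → E → ℂ) (k : Cm p × ℂ → ℂ),
      T' ⊆ 𝓕.T ∧ IsOpen T' ∧ t₀ ∈ T' ∧
      (∀ t ∈ T', ∀ (γ : Γ) e, m t (γ • e) = m t e) ∧
      (∀ j, ∀ t ∈ T', ∀ z ∈ ball (0 : ℂ) 3, (∀ γ : Γ, γ • 𝓕.σ i₀ t 0 ≠ 𝓕.σ j t z) →
        AnalyticAt ℂ (fun q : Cm p × ℂ => m q.1 (𝓕.σ j q.1 q.2)) (t, z)) ∧
      ∀ t ∈ T', AnalyticAt ℂ k (t, 0) ∧ ∀ᶠ q in 𝓝 (t, (0 : ℂ)), q.2 ≠ 0 →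
        m q.1 (𝓕.σ i₀ q.1 q.2) = q.2⁻¹ + k q

/-! ### Block E: integration, Stokes, Riemann bilinear relations -/

/-- **E1**: `herm` is a Hermitian form, positive definite modulo constants; it does not depend on the
sheets; it bounds the area of the discs. -/
structure E1Concl {E Γ : Type} [TopologicalSpace E] [Group Γ] [MulAction Γ E] (S : Sheets E Γ) :
    Prop where
  lin : ∀ {h₁ h₂ h' : E → ℂ} {c₁ c₂ c' : Γ → ℂ} (s : ℂ), Add S h₁ c₁ → Add S h₂ c₂ → Add S h' c' →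
    S.herm (fun e => s * h₁ e + h₂ e) h' = s * S.herm h₁ h' + S.herm h₂ h'
  symm : ∀ {h h' : E → ℂ} {c c' : Γ → ℂ}, Add S h c → Add S h' c' →
    S.herm h' h = conj (S.herm h h')
  nonneg : ∀ {h : E → ℂ} {c : Γ → ℂ}, Add S h c → 0 ≤ (S.herm h h).re
  pos : ∀ {h : E → ℂ} {c : Γ → ℂ}, Add S h c → S.herm h h = 0 → ∀ γ, c γ = 0
  area : ∀ {h : E → ℂ} {c : Γ → ℂ} {q : ℂ → E} {v₀ : ℂ} {r : ℝ}, Add S h c → DiscIn S q v₀ r →
    ∫⁻ v in ball v₀ r, ‖deriv (fun v => h (q v)) v‖ₑ ^ 2 ≤ ENNReal.ofReal (S.herm h h).re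
  inv : ∀ {h h' : E → ℂ} {c c' : Γ → ℂ} (S' : Sheets E Γ), HolCompat S S' → Add S h c →
    Add S h' c' → S'.herm h h' = S.herm h h'

def E1Stmt : Prop :=
  ∀ (E Γ : Type) [TopologicalSpace E] [T2Space E] [SimplyConnectedSpace E] [Group Γ]
    [MulAction Γ E] [ContinuousConstSMul Γ E] (S : Sheets E Γ), E1Concl S

/-- **E2** (Stokes): the imaginary part of `herm h h'`, i.e. `∫ d(Re h) ∧ d(Re h')`, is a bilinear form
in the real periods, which depends only on the smooth structure and the orientation. -/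
def E2Stmt : Prop :=
  ∀ (E Γ : Type) [TopologicalSpace E] [T2Space E] [SimplyConnectedSpace E] [Group Γ]
    [MulAction Γ E] [ContinuousConstSMul Γ E] (S : Sheets E Γ) (n : ℕ) (M : Mark Γ n),
    ∃ B : Matrix (Fin n) (Fin n) ℝ, ∀ S' : Sheets E Γ, Compat S' S → ∀ h c h' c', Add S' h c →
      Add S' h' c' → (S'.herm h h').im = ∑ k, ∑ l, B k l * (c (M.g k)).re * (c' (M.g l)).re

/-- **E3** (Stokes for C3): `∫ ∂̄v ∧ dh = 0`: the `(0,1)`-form `∂̄v` is orthogonal to `conj(dh)`. -/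
def E3Stmt : Prop :=
  ∀ (E Γ : Type) [TopologicalSpace E] [T2Space E] [SimplyConnectedSpace E] [Group Γ]
    [MulAction Γ E] [ContinuousConstSMul Γ E] (S : Sheets E Γ) (v h : E → ℂ) (c : Γ → ℂ),
    S.Smooth v → (∀ (γ : Γ) e, v (γ • e) = v e) → Add S h c →
      S.int (fun i z => dbar (fun z => v (S.σ i z)) z * deriv (fun z => h (S.σ i z)) z) = 0

/-- The real linear map `x ↦ Σ x_k c(γ_k)`. -/
def perMap {Γ : Type} [Group Γ] {n g : ℕ} (M : Mark Γ n) (c : Γ → Fin g → ℂ) (x : Fin n → ℝ) :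
    EuclideanSpace ℂ (Fin g) := WithLp.toLp 2 fun j => ∑ k, (x k : ℂ) * c (M.g k) j

/-- **F2** (linear algebra, from E1, E2, C2): the periods form a lattice, polarized by the inverse of
`B`, and the areas of the discs are bounded. -/
def F2Stmt : Prop :=
  ∀ (E Γ : Type) [TopologicalSpace E] [T2Space E] [SimplyConnectedSpace E] [Group Γ]
    [MulAction Γ E] [ContinuousConstSMul Γ E] (S : Sheets E Γ) (n g : ℕ) (M : Mark Γ n)
    (B : Matrix (Fin n) (Fin n) ℝ) (F : E → Fin g → ℂ) (c : Γ → Fin g → ℂ), n = 2 * g →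
    (∀ h c h' c', Add S h c → Add S h' c' →
      (S.herm h h').im = ∑ k, ∑ l, B k l * (c (M.g k)).re * (c' (M.g l)).re) →
    IsBas S F c → IsUnit B.det ∧
    ∃ π : (Fin n → ℝ) ≃L[ℝ] EuclideanSpace ℂ (Fin g), (∀ x, π x = perMap M c x) ∧
      (∃ G : EuclideanSpace ℂ (Fin g) ≃L[ℂ] EuclideanSpace ℂ (Fin g), ∀ x x',
        (inner ℂ (G (π x)) (G (π x'))).im = ∑ k, ∑ l, B⁻¹ k l * x' k * x l) ∧
      ∀ G : EuclideanSpace ℂ (Fin g) ≃L[ℂ] EuclideanSpace ℂ (Fin g), (∀ x x',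
        (inner ℂ (G (π x)) (G (π x'))).im = ∑ k, ∑ l, B⁻¹ k l * x' k * x l) →
        ∀ (q : ℂ → E) (v₀ : ℂ) (r : ℝ), DiscIn S q v₀ r →
          ∫⁻ v in ball v₀ r, ‖G (WithLp.toLp 2 fun j => deriv (fun v => F (q v) j) v)‖ₑ ^ 2 ≤
            (g : ENNReal)

/-! ### Genus one and zero -/

/-- **U1** (genus one): `F : E → ℂ` is a homeomorphism, without critical points, and the periods are
those of a free action. (C3: a critical point would give a meromorphic function with one simple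
pole, an isomorphism with the sphere; `F` is a covering by compactness.) -/
def U1Stmt : Prop :=
  ∀ (E Γ : Type) [TopologicalSpace E] [T2Space E] [SimplyConnectedSpace E] [Group Γ]
    [MulAction Γ E] [ContinuousConstSMul Γ E] (S : Sheets E Γ) (F : E → ℂ) (c : Γ → ℂ),
    Mark Γ 2 → Add S F c → (∃ e e', F e ≠ F e') → Function.Bijective F ∧ IsOpenMap F ∧
      Function.Injective c ∧ ∀ i, ∀ z ∈ ball (0 : ℂ) 3, deriv (fun z => F (S.σ i z)) z ≠ 0

/-- **U0** (genus zero): a meromorphic function with one simple pole is a bijection with `ℂ ∪ {∞}`, has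
no critical points, and all the holomorphic additive functions are constant. -/
def U0Stmt : Prop :=
  ∀ (E Γ : Type) [TopologicalSpace E] [T2Space E] [SimplyConnectedSpace E] [Group Γ]
    [MulAction Γ E] [ContinuousConstSMul Γ E] (S : Sheets E Γ) (i : Fin S.N) (m : E → ℂ)
    (z₀ : ℂ) (k : ℂ → ℂ), ‖z₀‖ < 1 → (∀ (γ : Γ) e, m (γ • e) = m e) →
    (∀ j, ∀ z ∈ ball (0 : ℂ) 3, (∀ γ : Γ, γ • S.σ i z₀ ≠ S.σ j z) →
      AnalyticAt ℂ (fun z => m (S.σ j z)) z) →
    AnalyticAt ℂ k z₀ → (∀ᶠ z in 𝓝[≠] z₀, m (S.σ i z) = (z - z₀)⁻¹ + k z) →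
    (∀ w : ℂ, ∃ e, m e = w ∧ ∀ γ : Γ, γ • S.σ i z₀ ≠ e) ∧
    (∀ e e', (∀ γ : Γ, γ • S.σ i z₀ ≠ e) → (∀ γ : Γ, γ • S.σ i z₀ ≠ e') → m e = m e' →
      ∃ γ : Γ, γ • e = e') ∧
    (∀ j, ∀ z ∈ ball (0 : ℂ) 3, (∀ γ : Γ, γ • S.σ i z₀ ≠ S.σ j z) →
      deriv (fun z => m (S.σ j z)) z ≠ 0) ∧
    ∀ h c, Add S h c → ∀ γ, c γ = 0

end Vale.Agent.P281.H64
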