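import Vale.Agent.P281.H64.Glob

/-!
# P281, theorem T-D (helper64): assembly in genus at least two, part 1: periods, lattice
-/

open Set Filter Metric MeasureTheory Vale.Agent.P281 Vale.Agent.P281.H713
open scoped Topology ContDiff Manifold ComplexConjugate

noncomputable section

namespace Vale.Agent.P281.H64

section mark
variable {Γ : Type} [Group Γ] {n : ℕ} (M : Mark Γ n)

theorem Mark.one (k : Fin n) : M.φ k 1 = 0 := by
  have := M.hom k 1 1
  rw [one_mul] at this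
  omega

theorem Mark.inv (k : Fin n) (γ : Γ) : M.φ k γ⁻¹ = -M.φ k γ := by
  have := M.hom k γ γ⁻¹
  rw [mul_inv_cancel, M.one] at this
  omega

theorem Mark.pow (k : Fin n) (γ : Γ) (m : ℕ) : M.φ k (γ ^ m) = m * M.φ k γ := by
  induction m with
  | zero => simp [M.one]
  | succ m ih => rw [pow_succ, M.hom, ih]; push_cast; ring

theorem Mark.zpow (k : Fin n) (γ : Γ) (m : ℤ) : M.φ k (γ ^ m) = m * M.φ k γ := by
  obtain ⟨a, rfl | rfl⟩ := m.eq_nat_or_neg
  · rw [zpow_natCast, M.pow]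
  · rw [zpow_neg, zpow_natCast, M.inv, M.pow]; ring

theorem Mark.surj (m : Fin n → ℤ) : ∃ γ, ∀ k, M.φ k γ = m k := by
  have h : ∀ s : Finset (Fin n), ∃ γ, ∀ k, M.φ k γ = if k ∈ s then m k else 0 := by
    intro s
    induction s using Finset.induction_on with
    | empty => exact ⟨1, fun k => by simp [M.one]⟩
    | insert a s ha ih =>
      obtain ⟨γ, hγ⟩ := ih
      refine ⟨γ * M.g a ^ (m a), fun k => ?_⟩
      rw [M.hom, hγ, M.zpow, M.dual]
      by_cases hk : k = a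
      · subst hk
        simp [ha]
      · simp [hk]
  obtain ⟨γ, hγ⟩ := h Finset.univ
  exact ⟨γ, fun k => by rw [hγ]; simp⟩

end mark

/-- the polarization with matrix `B⁻¹` -/
def Qf {n : ℕ} (B : Matrix (Fin n) (Fin n) ℝ) (x x' : Fin n → ℝ) : ℝ :=
  ∑ k, ∑ l, B⁻¹ k l * x' k * x l

theorem Qf_eq {n : ℕ} (B : Matrix (Fin n) (Fin n) ℝ) (x x' : Fin n → ℝ) :
    Qf B x x' = x' ⬝ᵥ (B⁻¹.mulVec x) := by
  rw [Qf, dotProduct]
  refine Finset.sum_congr rfl fun k _ => ?_
  rw [Matrix.mulVec, dotProduct, Finset.mul_sum]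
  refine Finset.sum_congr rfl fun l _ => ?_
  ring

section
variable {E Γ : Type} [TopologicalSpace E] [Group Γ] [MulAction Γ E] {S : Sheets E Γ} {n g : ℕ}
  {M : Mark Γ n} {F : E → Fin g → ℂ} {c : Γ → Fin g → ℂ}

theorem IsBas.per_eq [Nonempty E] (h : IsBas S F c) (γ : Γ) :
    WithLp.toLp 2 (c γ) = perMap M c fun k => (M.φ k γ : ℝ) := by
  rw [perMap]
  congr 1
  funext j
  have h1 := M.complex (c := fun γ => c γ j) (h.add j).map_mul γ
  rw [h1]
  refine Finset.sum_congr rfl fun k _ => ?_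
  push_cast
  rfl

/-- the values at two equivalent points are congruent -/
theorem IsBas.congr [Nonempty E] (h : IsBas S F c) {π : (Fin n → ℝ) ≃L[ℝ] EuclideanSpace ℂ (Fin g)}
    (hπ : ∀ x, π x = perMap M c x) (γ : Γ) (e : E) :
    IsCongr π (WithLp.toLp 2 (F e)) (WithLp.toLp 2 (F (γ • e))) := by
  refine ⟨fun k => M.φ k γ, ?_⟩
  rw [hπ, ← h.per_eq]
  rw [← WithLp.toLp_add]
  congr 1
  funext j
  exact (h.add j).add γ e

end

/-- a continuous function with values in a lattice is locally constant -/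
theorem lattice_const {n g : ℕ} (π : (Fin n → ℝ) ≃L[ℝ] EuclideanSpace ℂ (Fin g)) {A : Type}
    [TopologicalSpace A] {u : A → EuclideanSpace ℂ (Fin g)} {a : A} (hu : ContinuousAt u a)
    (h : ∀ᶠ b in 𝓝 a, ∃ m : Fin n → ℤ, u b = π fun i => (m i : ℝ)) : ∀ᶠ b in 𝓝 a, u b = u a := by
  have h1 : ContinuousAt (fun b => π.symm (u b)) a := π.symm.continuous.continuousAt.comp hu
  obtain ⟨m₀, hm₀⟩ := h.self_of_nhds
  have h2 : ∀ᶠ b in 𝓝 a, ‖π.symm (u b) - π.symm (u a)‖ < 1 := by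
    obtain h3 := h1.eventually (Metric.ball_mem_nhds _ one_pos)
    filter_upwards [h3] with b hb
    rwa [dist_eq_norm] at hb
  filter_upwards [h, h2] with b ⟨m, hm⟩ hb
  rw [hm, hm₀, π.symm_apply_apply, π.symm_apply_apply] at hb
  rw [hm, hm₀]
  congr 1
  funext i
  have h3 := (norm_le_pi_norm ((fun i => (m i : ℝ)) - fun i => (m₀ i : ℝ)) i).trans_lt hb
  have h4 : |((m i - m₀ i : ℤ) : ℝ)| < 1 := by
    push_cast
    exact h3
  have h5 : |m i - m₀ i| < 1 := by exact_mod_cast h4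
  have h6 := Int.abs_lt_one_iff.1 h5
  have h7 : m i = m₀ i := by omega
  rw [h7]

end Vale.Agent.P281.H64
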