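import Vale.Agent.P281.H64.G2b

/-!
# P281, theorem T-D (helper64): assembly in genus at least two, part 3: nondegeneracy, area
-/

open Set Filter Metric MeasureTheory Vale.Agent.P281 Vale.Agent.P281.H713
open scoped Topology ContDiff Manifold ComplexConjugate

set_option linter.unusedSectionVars false

noncomputable section

namespace Vale.Agent.P281.H64

variable {d p : ℕ} {Z Y : Type} [TopologicalSpace Z] [T2Space Z] [ChartedSpace (Cm d) Z]
  [IsManifold 𝓘(ℂ, Cm d) ω Z] [TopologicalSpace Y] [T2Space Y] [ChartedSpace (Cm p) Y]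
  [IsManifold 𝓘(ℂ, Cm p) ω Y] {f : Z → Y} {n g : ℕ} {B : Matrix (Fin n) (Fin n) ℝ}

theorem functional_eq {g : ℕ} (l : EuclideanSpace ℂ (Fin g) →L[ℂ] ℂ) (v : Fin g → ℂ) :
    l (WithLp.toLp 2 v) = ∑ j, l (WithLp.toLp 2 (Pi.single j 1)) * v j := by
  have h1 : (WithLp.toLp 2 v : EuclideanSpace ℂ (Fin g)) =
      ∑ j, v j • (WithLp.toLp 2 (Pi.single j (1 : ℂ)) : EuclideanSpace ℂ (Fin g)) := by
    apply (WithLp.equiv 2 (Fin g → ℂ)).injective
    funext k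
    simp [Finset.sum_apply, Pi.single_apply]
  rw [h1, map_sum]
  refine Finset.sum_congr rfl fun j _ => ?_
  rw [map_smul, smul_eq_mul, mul_comm]

namespace DLoc

variable {L : DLoc (d := d) (p := p) f B g}

/-- a point of the fibre over `y` -/
theorem exists_center (L : DLoc (d := d) (p := p) f B g) {y : Y} (hy : y ∈ L.U) :
    ∃ (i : Fin L.𝓕.N) (z : ℂ), ‖z‖ < 1 ∧
    f (L.q (L.χ y) (L.𝓕.σ i (L.χ y) z)) = y := by
  obtain ⟨γ, i, z, hz, he⟩ := L.𝓕.cover _ (L.hT' hy.2) (Classical.arbitrary L.E)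
  exact ⟨i, z, hz, by rw [L.model.fib _ (L.hT' hy.2), L.left_inv hy]⟩

theorem nondeg (hF2 : F2Stmt) (hn : n = 2 * g) (D : (Fin n → ℝ) ≃L[ℝ] EuclideanSpace ℂ (Fin g))
    {y : Y} (hy : y ∈ L.U) : ∃ x, f x = y ∧ ∀ β : Z → EuclideanSpace ℂ (Fin g),
      ContMDiffAt 𝓘(ℂ, Cm d) 𝓘(ℂ, EuclideanSpace ℂ (Fin g)) ω β x →
      (∀ᶠ z in 𝓝 x, IsCongr (L.π D (f z)) (L.α z) (β z)) →
      ∀ l : EuclideanSpace ℂ (Fin g) →L[ℂ] ℂ, (∀ᶠ z in 𝓝 x, f z = y → l (β z) = l (β x)) →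
      l = 0 := by
  obtain ⟨i, z, hz, hfx⟩ := L.exists_center hy
  have hz3 := Sheets.mem3 hz
  have ht := L.hT' hy.2
  refine ⟨L.q (L.χ y) (L.𝓕.σ i (L.χ y) z), hfx, fun β hβ hc l hl => ?_⟩
  set c : ℂ → Z := fun u => L.q (L.χ y) (L.𝓕.σ i (L.χ y) u) with hcdef
  have hfc : ∀ u, f (c u) = y := fun u => by
    rw [hcdef]
    simp only
    rw [L.model.fib _ ht, L.left_inv hy]
  have hcc : ContinuousAt c z := by
    have h1 := (L.model.hol i _ ht z hz3).continuousAt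
    exact ContinuousAt.comp (f := fun u : ℂ => (L.χ y, u)) (x := z) h1 (by fun_prop)
  have hFa : ∀ j, AnalyticAt ℂ (fun u => L.F (L.χ y) (L.𝓕.σ i (L.χ y) u) j) z := fun j => by
    have h1 := ((L.bas _ hy.2).add j).analyticAt 1 i hz3
    simp only [one_smul] at h1
    exact h1
  have hFc : ContinuousAt (fun u => (WithLp.toLp 2 (L.F (L.χ y) (L.𝓕.σ i (L.χ y) u)) :
      EuclideanSpace ℂ (Fin g))) z := by
    refine (PiLp.continuous_toLp 2 (fun _ : Fin g => ℂ)).continuousAt.comp ?_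
    rw [continuousAt_pi]
    exact fun j => (hFa j).continuousAt
  -- the difference is in the lattice
  set w : ℂ → EuclideanSpace ℂ (Fin g) := fun u =>
    β (c u) - WithLp.toLp 2 (L.F (L.χ y) (L.𝓕.σ i (L.χ y) u)) with hw
  have hwc : ContinuousAt w z :=
    (ContinuousAt.comp (f := c) (x := z) hβ.continuousAt hcc).sub hFc
  have hwl : ∀ᶠ u in 𝓝 z, ∃ m : Fin n → ℤ, w u = L.π D y fun i => (m i : ℝ) := by
    filter_upwards [hcc.eventually hc] with u hu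
    obtain ⟨m₁, hm₁⟩ := hu
    have hcu : f (c u) ∈ L.U := by rw [hfc]; exact hy
    have h2 := congr_aux (L := L) hF2 hn D (x := c u) (e := L.𝓕.σ i (L.χ y) u) hcu
      (by rw [hfc])
    obtain ⟨m₂, hm₂⟩ := h2
    rw [hfc] at hm₁ hm₂
    refine ⟨m₁ - m₂, ?_⟩
    rw [hw]
    simp only
    rw [hm₁, hm₂]
    have h3 : (fun i => ((m₁ - m₂) i : ℝ)) = (fun i => (m₁ i : ℝ)) - fun i => (m₂ i : ℝ) := by
      funext i
      simp
    rw [h3, map_sub]
    abel
  have hwconst := lattice_const (L.π D y) hwc hwl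
  -- the additive function
  set s : Fin g → ℂ := fun j => l (WithLp.toLp 2 (Pi.single j 1)) with hs
  have hadd := Add.sum (L.bas _ hy.2).add s
  have hev : ∀ᶠ u in 𝓝 z, ∑ j, s j * L.F (L.χ y) (L.𝓕.σ i (L.χ y) u) j =
      ∑ j, s j * L.F (L.χ y) (L.𝓕.σ i (L.χ y) z) j := by
    filter_upwards [hwconst, hcc.eventually hl] with u h1 h2
    have h3 := h2 (hfc u)
    have h4 : (WithLp.toLp 2 (L.F (L.χ y) (L.𝓕.σ i (L.χ y) u)) : EuclideanSpace ℂ (Fin g)) =
        β (c u) - β (c z) + WithLp.toLp 2 (L.F (L.χ y) (L.𝓕.σ i (L.χ y) z)) := by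
      rw [hw] at h1
      simp only at h1
      rw [sub_eq_sub_iff_sub_eq_sub] at h1
      rw [h1]
      abel
    have h6 := congrArg l h4
    have h7 : l (β (c z)) = l (β (L.q (L.χ y) (L.𝓕.σ i (L.χ y) z))) := rfl
    rw [map_add, map_sub, h3, h7, sub_self, zero_add, functional_eq, functional_eq] at h6
    exact h6
  have hev' : ∀ᶠ e in 𝓝 (L.𝓕.σ i (L.χ y) z), ∑ j, s j * L.F (L.χ y) e j =
      ∑ j, s j * L.F (L.χ y) (L.𝓕.σ i (L.χ y) z) j := by
    rw [← L.𝓕.map_nhds' i _ ht z hz3, eventually_map]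
    exact hev
  have hconst : ∀ e, ∑ j, s j * L.F (L.χ y) e j =
      ∑ j, s j * L.F (L.χ y) (L.𝓕.σ i (L.χ y) z) j := fun e =>
    hadd.const_of_eventually hev' e
  have hper := hadd.per_zero (fun e e' => by rw [hconst e, hconst e'])
  have hs0 := (L.bas _ hy.2).indep s hper
  ext v
  have h8 := functional_eq l ((WithLp.equiv 2 _) v)
  have h9 : (WithLp.toLp 2 ((WithLp.equiv 2 _) v) : EuclideanSpace ℂ (Fin g)) = v := rfl
  rw [h9] at h8
  rw [h8]
  have h10 : ∀ j, l (WithLp.toLp 2 (Pi.single j 1)) = 0 := fun j => congrFun hs0 j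
  rw [zero_apply]
  exact Finset.sum_eq_zero fun j _ => by rw [h10, zero_mul]

/-- lift of a disc to the covering -/
theorem lift_disc (_hf : ContMDiff 𝓘(ℂ, Cm d) 𝓘(ℂ, Cm p) ω f) {y : Y} (hy : y ∈ L.U) {q : ℂ → Z}
    {v₀ : ℂ} {r : ℝ} (hq : IsDisc (Cm d) f q v₀ r) (hqy : f (q v₀) = y) (hr : 0 < r) :
    ∃ q' : ℂ → L.E, (∀ v ∈ ball v₀ r, L.q (L.χ y) (q' v) = q v) ∧ DiscIn (L.sh hy) q' v₀ r := by
  classical
  have ht := L.hT' hy.2
  obtain ⟨hq1, hq2, hq3⟩ := hq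
  have hfy : ∀ v ∈ ball v₀ r, f (q v) = L.χ.symm (L.χ y) := fun v hv => by
    rw [hq3 v hv, hqy, L.left_inv hy]
  have hcov := L.model.cov _ ht
  have : LocallyPathConnectedSpace (ball v₀ r) := isOpen_ball.locallyPathConnectedSpace
  have : ContractibleSpace (ball v₀ r) :=
    (convex_ball v₀ r).contractibleSpace (nonempty_ball.2 hr)
  let φ : C(ball v₀ r, f ⁻¹' {L.χ.symm (L.χ y)}) := ⟨fun v => ⟨q v, hfy v v.2⟩, by
    refine Continuous.subtype_mk ?_ _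
    have h1 : ContinuousOn q (ball v₀ r) := fun v hv => (hq1 v hv).continuousAt.continuousWithinAt
    exact h1.comp_continuous continuous_subtype_val fun v => v.2⟩
  have hv₀ : v₀ ∈ ball v₀ r := mem_ball_self hr
  obtain ⟨e₀, he₀⟩ : ∃ e₀, L.q (L.χ y) e₀ = q v₀ := by
    have hmem : f (q v₀) ∈ L.U := by rw [hqy]; exact hy
    have := L.exists_pt hmem
    rw [hqy] at this
    exact this
  obtain ⟨Φ, ⟨hΦ0, hΦ⟩, -⟩ := hcov.existsUnique_continuousMap_lifts φ ⟨v₀, hv₀⟩ e₀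
    (Subtype.ext he₀)
  have hΦ' : ∀ v : ball v₀ r, L.q (L.χ y) (Φ v) = q v := fun v =>
    congrArg Subtype.val (congrFun hΦ v)
  set q' : ℂ → L.E := fun v => if h : v ∈ ball v₀ r then Φ ⟨v, h⟩ else Classical.arbitrary _
    with hq'
  have hq'v : ∀ v (hv : v ∈ ball v₀ r), q' v = Φ ⟨v, hv⟩ := fun v hv => by
    rw [hq']
    simp only
    rw [dif_pos hv]
  have hqq : ∀ v ∈ ball v₀ r, L.q (L.χ y) (q' v) = q v := fun v hv => by
    rw [hq'v v hv, hΦ']
  have hcont : ∀ v ∈ ball v₀ r, ContinuousAt q' v := by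
    intro v hv
    have h1 : ContinuousOn q' (ball v₀ r) := by
      rw [continuousOn_iff_continuous_domRestrict]
      have h2 : (ball v₀ r).domRestrict q' = Φ := by
        funext v
        exact hq'v v v.2
      rw [h2]
      exact Φ.continuous
    exact h1.continuousAt (isOpen_ball.mem_nhds hv)
  refine ⟨q', hqq, ⟨fun v hv i z hz γ he => ?_, fun v hv v' hv' γ he => ?_⟩⟩
  · have hpt : L.q (L.χ y) (L.𝓕.σ i (L.χ y) z) = q v := by
      rw [← hqq v hv, he]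
      exact (L.model.eq _ ht _ _).2 ⟨γ, rfl⟩
    obtain ⟨ζ, h1, h2, h3⟩ := L.model.coord i _ ht z hz
    rw [hpt] at h1 h2 h3
    have hqc := (hq1 v hv).continuousAt
    have han : AnalyticAt ℂ (fun u => ζ (q u)) v := by
      have : ContMDiffAt 𝓘(ℂ, ℂ) 𝓘(ℂ, ℂ) ω (fun u => ζ (q u)) v :=
        ContMDiffAt.comp v (g := ζ) (f := q) h1 (hq1 v hv)
      exact this.contDiffAt.analyticAt
    refine ⟨fun u => ζ (q u), han, h2, ?_⟩
    have hopen : (fun w => γ • L.𝓕.σ i (L.χ y) w) '' ball 0 3 ∈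
        𝓝 (γ • L.𝓕.σ i (L.χ y) z) :=
      ((L.sh hy).isOpen_image_smul γ i isOpen_ball (Subset.refl _)).mem_nhds ⟨z, hz, rfl⟩
    have h4 : ∀ᶠ u in 𝓝 v, q' u ∈ (fun w => γ • L.𝓕.σ i (L.χ y) w) '' ball 0 3 :=
      (hcont v hv).eventually (by
        show ∀ᶠ e in 𝓝 (q' v), e ∈ _
        rw [he]; exact hopen)
    have h5 : ∀ᶠ u in 𝓝 v, ζ (q u) ∈ ball (0 : ℂ) 3 := han.continuousAt.eventually (by
      show ∀ᶠ w in 𝓝 (ζ (q v)), w ∈ ball (0 : ℂ) 3
      rw [h2]; exact isOpen_ball.mem_nhds hz)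
    filter_upwards [hqc.eventually h3, h4, h5, isOpen_ball.mem_nhds hv] with u a b c hu
    obtain ⟨w, hw, hwe⟩ := b
    simp only at hwe
    have hχ : L.χ (f (q u)) = L.χ y := by rw [hq3 u hu, hqy]
    rw [hχ] at a
    have h6 : L.q (L.χ y) (L.𝓕.σ i (L.χ y) w) =
        L.q (L.χ y) (L.𝓕.σ i (L.χ y) (ζ (q u))) := by
      rw [a, ← hqq u hu, ← hwe]
      exact (L.model.eq _ ht _ _).2 ⟨γ, rfl⟩
    obtain ⟨γ₂, hγ₂⟩ := (L.model.eq _ ht _ _).1 h6
    obtain ⟨-, h8⟩ := L.𝓕.inj i _ ht w hw _ c γ₂ hγ₂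
    rw [← hwe, h8]
    rfl
  · apply hq2 hv hv'
    rw [← hqq v hv, ← hqq v' hv', he]
    exact ((L.model.eq _ ht _ _).2 ⟨γ, rfl⟩).symm

theorem area (hF2 : F2Stmt) (hn : n = 2 * g) (hf : ContMDiff 𝓘(ℂ, Cm d) 𝓘(ℂ, Cm p) ω f)
    (D : (Fin n → ℝ) ≃L[ℝ] EuclideanSpace ℂ (Fin g)) {q : ℂ → Z} {v₀ : ℂ} {r : ℝ}
    (hq : IsDisc (Cm d) f q v₀ r) (hy : f (q v₀) ∈ L.U) {h : ℂ → EuclideanSpace ℂ (Fin g)}
    (hh : DifferentiableOn ℂ h (ball v₀ r))
    (hc : ∀ v ∈ ball v₀ r, IsCongr (L.π D (f (q v₀))) (L.α (q v)) (h v))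
    {G : EuclideanSpace ℂ (Fin g) ≃L[ℂ] EuclideanSpace ℂ (Fin g)}
    (hG : ∀ x x', (inner ℂ (G (L.π D (f (q v₀)) x)) (G (L.π D (f (q v₀)) x'))).im = Qf B x x') :
    ∫⁻ v in ball v₀ r, ‖G (deriv h v)‖ₑ ^ 2 ≤ (g : ENNReal) := by
  rcases le_or_gt r 0 with hr | hr
  · rw [ball_eq_empty.2 hr]
    simp
  obtain ⟨q', hqq, hdisc⟩ := L.lift_disc hf hy hq rfl hr
  set y := f (q v₀) with hydef
  have ht := L.hT' hy.2
  obtain ⟨-, π', hπ', -, harea⟩ := L.F2_at hF2 hn hy.2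
  have hππ := π_eq hF2 hn D hy hπ'
  have h1 := harea G (fun x x' => by rw [← hππ]; exact hG x x') q' v₀ r hdisc
  have hderiv : ∀ v ∈ ball v₀ r, deriv h v =
      WithLp.toLp 2 fun j => deriv (fun v => L.F (L.χ y) (q' v) j) v := by
    intro v hv
    obtain ⟨γ, i, z, hz, he⟩ := (L.sh hy).cover (q' v)
    have hz3 := Sheets.mem3 hz
    obtain ⟨θ, k1, k2, k3⟩ := hdisc.hol v hv i z hz3 γ he.symm
    -- differentiability of `F ∘ q'`
    have hd : ∀ j, DifferentiableAt ℂ (fun v => L.F (L.χ y) (q' v) j) v := by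
      intro j
      have h2 : DifferentiableAt ℂ (fun u => L.F (L.χ y) (γ • L.𝓕.σ i (L.χ y) (θ u)) j) v := by
        have h3 := (((L.bas _ hy.2).add j).analyticAt γ i hz3).differentiableAt
        exact DifferentiableAt.comp (g := fun z => L.F (L.χ y) (γ • L.𝓕.σ i (L.χ y) z) j)
          (f := θ) v (by rw [k2]; exact h3) k1.differentiableAt
      refine h2.congr_of_eventuallyEq ?_
      filter_upwards [k3] with u hu
      rw [hu]
      rfl
    have hdl : HasDerivAt (fun v => (WithLp.toLp 2 (L.F (L.χ y) (q' v)) :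
        EuclideanSpace ℂ (Fin g))) (WithLp.toLp 2 fun j =>
          deriv (fun v => L.F (L.χ y) (q' v) j) v) v := by
      have h4 : HasDerivAt (fun v => L.F (L.χ y) (q' v))
          (fun j => deriv (fun v => L.F (L.χ y) (q' v) j) v) v :=
        hasDerivAt_pi.2 fun j => (hd j).hasDerivAt
      exact ((PiLp.continuousLinearEquiv 2 ℂ
        (fun _ : Fin g => ℂ)).symm.toContinuousLinearMap.hasFDerivAt.comp_hasDerivAt v h4)
    -- the difference is locally constant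
    have hcont : ContinuousAt (fun u => h u - (WithLp.toLp 2 (L.F (L.χ y) (q' u)) :
        EuclideanSpace ℂ (Fin g))) v :=
      (hh.differentiableAt (isOpen_ball.mem_nhds hv)).continuousAt.sub hdl.continuousAt
    have hlat : ∀ᶠ u in 𝓝 v, ∃ m : Fin n → ℤ, h u - (WithLp.toLp 2 (L.F (L.χ y) (q' u)) :
        EuclideanSpace ℂ (Fin g)) = L.π D y fun i => (m i : ℝ) := by
      filter_upwards [isOpen_ball.mem_nhds hv] with u hu
      obtain ⟨m₁, hm₁⟩ := hc u hu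
      have hfu : f (q u) = y := hq.2.2 u hu
      have h5 := congr_aux (L := L) hF2 hn D (x := q u) (e := q' u) (by rw [hfu]; exact hy)
        (by rw [hfu]; exact hqq u hu)
      obtain ⟨m₂, hm₂⟩ := h5
      rw [hfu] at hm₂
      refine ⟨m₁ - m₂, ?_⟩
      rw [hm₁, hm₂]
      have h3 : (fun i => ((m₁ - m₂) i : ℝ)) = (fun i => (m₁ i : ℝ)) - fun i => (m₂ i : ℝ) := by
        funext i
        simp
      rw [h3, map_sub]
      abel
    have hlc := lattice_const (L.π D y) hcont hlat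
    have h6 : h =ᶠ[𝓝 v] fun u => (WithLp.toLp 2 (L.F (L.χ y) (q' u)) :
        EuclideanSpace ℂ (Fin g)) + (h v - WithLp.toLp 2 (L.F (L.χ y) (q' v))) := by
      filter_upwards [hlc] with u hu
      rw [← hu]
      abel
    rw [h6.deriv_eq]
    exact (hdl.add_const _).deriv
  refine le_trans (le_of_eq ?_) h1
  refine setLIntegral_congr_fun measurableSet_ball fun v hv => ?_
  simp only
  rw [hderiv v hv]

end DLoc

end Vale.Agent.P281.H64
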