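import Vale.Agent.P281.H64.SpecG
import Vale.Agent.P281.H64.Base2

/-!
# P281, theorem T-D (helper64): the local data, with the same form of the periods over `Y ∖ S`
-/

open Set Filter Metric MeasureTheory Vale.Agent.P281 Vale.Agent.P281.H713
open scoped Topology ContDiff Manifold ComplexConjugate

noncomputable section

namespace Vale.Agent.P281.H64

/-- Local data over an open set of `Y`: a family which is a model of `f`, with a marking of the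
group, for which the form of the real periods is `B`. -/
structure Loc {d p : ℕ} {Z Y : Type} [TopologicalSpace Z] [ChartedSpace (Cm d) Z]
    [TopologicalSpace Y] [ChartedSpace (Cm p) Y] (f : Z → Y) {n : ℕ}
    (B : Matrix (Fin n) (Fin n) ℝ) where
  E : Type
  Γ : Type
  [tE : TopologicalSpace E]
  [t2 : T2Space E]
  [sc : SimplyConnectedSpace E]
  [gr : Group Γ]
  [act : MulAction Γ E]
  [ct : ContinuousConstSMul Γ E]
  𝓕 : Fam p E Γ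
  q : Cm p → E → Z
  χ : OpenPartialHomeomorph Y (Cm p)
  model : Model (n := d) f 𝓕 χ q
  M : Mark Γ n
  form : ∀ t (ht : t ∈ 𝓕.T), HasForm (𝓕.at t ht) M B

attribute [instance] Loc.tE Loc.t2 Loc.sc Loc.gr Loc.act Loc.ct

/-- all the analytic inputs of the globalisation -/
structure Inputs : Prop where
  c2 : C2Stmt
  e1 : E1Stmt
  e2 : E2Stmt
  f1 : F1Stmt
  k : KStmt

section
variable {E Γ : Type} [TopologicalSpace E] [T2Space E] [SimplyConnectedSpace E] [Group Γ]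
  [MulAction Γ E] [ContinuousConstSMul Γ E]

/-- the form does not depend on the point of the family -/
theorem HasForm.move (h2 : C2Stmt) (hE2 : E2Stmt) {p : ℕ} {𝓕 : Fam p E Γ} {n : ℕ}
    {M : Mark Γ n} {B : Matrix (Fin n) (Fin n) ℝ} {t s : Cm p} {ht : t ∈ 𝓕.T} (hs : s ∈ 𝓕.T)
    (h : HasForm (𝓕.at t ht) M B) : HasForm (𝓕.at s hs) M B := by
  obtain ⟨B', hB'⟩ := hE2 E Γ (𝓕.at t ht) n M
  have h1 : HasForm (𝓕.at t ht) M B' := hB' _ (𝓕.compat t t ht ht)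
  have h3 : HasForm (𝓕.at s hs) M B' := hB' _ (𝓕.compat s t hs ht)
  rw [h.unique (h2 E Γ (𝓕.at t ht)).1 h1]
  exact h3

/-- transport of a marking -/
theorem HasForm.transport (hE1 : E1Stmt) {S : Sheets E Γ} {E' Γ' : Type} [TopologicalSpace E']
    [Group Γ'] [MulAction Γ' E'] {S' : Sheets E' Γ'} {τ : E ≃ₜ E'} {ρ : Γ ≃* Γ'}
    {hτ : ∀ γ e, τ (γ • e) = ρ γ • τ e} (hc : HolCompat S (S'.pull τ ρ hτ)) {n : ℕ}
    {M : Mark Γ n} {B : Matrix (Fin n) (Fin n) ℝ} (h : HasForm S M B) :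
    HasForm S' (M.map ρ) B := by
  intro u c u' c' H H'
  have H1 : Add S (fun e => u (τ e)) (fun γ => c (ρ γ)) := hc.symm.add (H.pull (hτ := hτ))
  have H1' : Add S (fun e => u' (τ e)) (fun γ => c' (ρ γ)) := hc.symm.add (H'.pull (hτ := hτ))
  have h1 := h _ _ _ _ H1 H1'
  rw [← (hE1 E Γ S).inv _ hc H1 H1', herm_pull] at h1
  exact h1

end

section
variable {d p : ℕ} {Z Y : Type} [TopologicalSpace Z] [T2Space Z] [ChartedSpace (Cm d) Z]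
  [IsManifold 𝓘(ℂ, Cm d) ω Z] [TopologicalSpace Y] [T2Space Y] [ChartedSpace (Cm p) Y]
  [IsManifold 𝓘(ℂ, Cm p) ω Y]

/-- some model at `y` has a marking with form `B` -/
def PP (f : Z → Y) {n : ℕ} (B : Matrix (Fin n) (Fin n) ℝ) (y : Y) : Prop :=
  ∃ (E Γ : Type) (_ : TopologicalSpace E) (_ : T2Space E) (_ : SimplyConnectedSpace E)
    (_ : Group Γ) (_ : MulAction Γ E) (_ : ContinuousConstSMul Γ E) (𝓕 : Fam p E Γ)
    (q : Cm p → E → Z) (χ : OpenPartialHomeomorph Y (Cm p)) (t : Cm p) (ht : t ∈ 𝓕.T)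
    (M : Mark Γ n), Model (n := d) f 𝓕 χ q ∧ χ.symm t = y ∧ HasForm (𝓕.at t ht) M B

/-- then all the models at `y` have such a marking -/
theorem PP.all (I : Inputs) {f : Z → Y} (hf : ContMDiff 𝓘(ℂ, Cm d) 𝓘(ℂ, Cm p) ω f) {n : ℕ}
    {B : Matrix (Fin n) (Fin n) ℝ} {y : Y} (h : PP (d := d) (p := p) f B y)
    {E' Γ' : Type} [TopologicalSpace E'] [T2Space E'] [SimplyConnectedSpace E']
    [Group Γ'] [MulAction Γ' E'] [ContinuousConstSMul Γ' E'] {𝓕' : Fam p E' Γ'}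
    {q' : Cm p → E' → Z} {χ' : OpenPartialHomeomorph Y (Cm p)} (M' : Model (n := d) f 𝓕' χ' q')
    {t' : Cm p} (ht' : t' ∈ 𝓕'.T) (hy : χ'.symm t' = y) :
    ∃ M₁ : Mark Γ' n, HasForm (𝓕'.at t' ht') M₁ B := by
  obtain ⟨E, Γ, _, _, _, _, _, _, 𝓕, q, χ, t, ht, M, hM, hy', hB⟩ := h
  obtain ⟨τ, ρ, hτ, hq, hol⟩ := I.k d p Z Y f E Γ 𝓕 q χ E' Γ' 𝓕' q' χ' hf hM M' t ht t' ht'
    (by rw [hy, hy'])
  refine ⟨M.map ρ, HasForm.transport I.e1 (τ := τ) (hτ := hτ) ?_ hB⟩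
  intro i j z hz w hw γ he
  have he' : τ (𝓕.σ i t z) = ρ γ • 𝓕'.σ j t' w := by
    have h1 : τ (𝓕.σ i t z) = τ (γ • τ.symm (𝓕'.σ j t' w)) := congrArg τ he
    rw [hτ, τ.apply_symm_apply] at h1
    exact h1
  obtain ⟨θ, h1, h2, h3, h4⟩ := hol i j z hz w hw (ρ γ) he'
  refine ⟨θ, h1, h2, h3, ?_⟩
  filter_upwards [h4] with u hu
  apply τ.injective
  show τ (𝓕.σ i t u) = τ (γ • τ.symm (𝓕'.σ j t' (θ u)))
  rw [hτ, τ.apply_symm_apply, hu]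

/-- **the same form everywhere** -/
theorem glob (I : Inputs) {f : Z → Y} (hf : ContMDiff 𝓘(ℂ, Cm d) 𝓘(ℂ, Cm p) ω f) {S : Set Y}
    (hS : IsClosed S) (hconn : IsPreconnected Sᶜ)
    (hAB : ∀ y₀ ∉ S, ∃ (E Γ : Type) (_ : TopologicalSpace E) (_ : T2Space E)
      (_ : SimplyConnectedSpace E) (_ : Group Γ) (_ : MulAction Γ E)
      (_ : ContinuousConstSMul Γ E) (𝓕 : Fam p E Γ) (q : Cm p → E → Z),
      Model (n := d) f 𝓕 (chartAt (Cm p) y₀) q ∧ chartAt (Cm p) y₀ y₀ ∈ 𝓕.T ∧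
      ∀ t ∈ 𝓕.T, (chartAt (Cm p) y₀).symm t ∉ S) {y₁ : Y} (hy₁ : y₁ ∉ S) :
    ∃ (n : ℕ) (B : Matrix (Fin n) (Fin n) ℝ), ∀ y₀ ∉ S, ∃ L : Loc (d := d) (p := p) f B,
      y₀ ∈ L.χ.source ∧ L.χ y₀ ∈ L.𝓕.T ∧ ∀ t ∈ L.𝓕.T, L.χ.symm t ∉ S := by
  -- the initial point
  obtain ⟨E₁, Γ₁, _, _, _, _, _, _, 𝓕₁, q₁, hM₁, ht₁, -⟩ := hAB y₁ hy₁
  obtain ⟨n, ⟨M₁⟩⟩ := I.f1.1 E₁ Γ₁ (𝓕₁.at _ ht₁)
  obtain ⟨B, hB⟩ := I.e2 E₁ Γ₁ (𝓕₁.at _ ht₁) n M₁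
  have hP₁ : PP (d := d) (p := p) f B y₁ := ⟨E₁, Γ₁, inferInstance, inferInstance,
    inferInstance, inferInstance, inferInstance, inferInstance, 𝓕₁, q₁, _, _, ht₁, M₁, hM₁,
    (chartAt (Cm p) y₁).left_inv (mem_chart_source _ _), hB _ (𝓕₁.compat _ _ ht₁ ht₁)⟩
  -- the key property
  have key : ∀ y₀ ∉ S, ∃ U ∈ 𝓝 y₀, ∀ y ∈ U, ∀ y' ∈ U, PP (d := d) (p := p) f B y → PP (d := d) (p := p) f B y' := by
    intro y₀ hy₀
    obtain ⟨E, Γ, _, _, _, _, _, _, 𝓕, q, hM, ht, -⟩ := hAB y₀ hy₀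
    set χ := chartAt (Cm p) y₀ with hχ
    have hU : χ.source ∩ χ ⁻¹' 𝓕.T ∈ 𝓝 y₀ :=
      (χ.isOpen_inter_preimage 𝓕.isOpen).mem_nhds ⟨mem_chart_source _ _, ht⟩
    refine ⟨_, hU, fun y hy y' hy' h => ?_⟩
    obtain ⟨M, hMf⟩ := h.all I hf hM hy.2 (χ.left_inv hy.1)
    exact ⟨E, Γ, inferInstance, inferInstance, inferInstance, inferInstance, inferInstance,
      inferInstance, 𝓕, q, χ, χ y', hy'.2, M, hM, χ.left_inv hy'.1,
      hMf.move I.c2 I.e2 hy'.2⟩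
  have hall : ∀ y ∉ S, PP (d := d) (p := p) f B y := by
    -- two open sets
    set A : Set Y := {y | y ∉ S ∧ PP (d := d) (p := p) f B y} with hA
    set A' : Set Y := {y | y ∉ S ∧ ¬ PP (d := d) (p := p) f B y} with hA'
    have hSo : IsOpen Sᶜ := hS.isOpen_compl
    have hAo : IsOpen A := by
      rw [isOpen_iff_mem_nhds]
      rintro y ⟨hy, hP⟩
      obtain ⟨U, hU, hUP⟩ := key y hy
      filter_upwards [hU, hSo.mem_nhds hy] with y' a b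
      exact ⟨b, hUP y (mem_of_mem_nhds hU) y' a hP⟩
    have hAo' : IsOpen A' := by
      rw [isOpen_iff_mem_nhds]
      rintro y ⟨hy, hP⟩
      obtain ⟨U, hU, hUP⟩ := key y hy
      filter_upwards [hU, hSo.mem_nhds hy] with y' a b
      exact ⟨b, fun h => hP (hUP y' a y (mem_of_mem_nhds hU) h)⟩
    intro y hy
    by_contra hcon
    obtain ⟨x, -, hx1, hx2⟩ := hconn A A' hAo hAo' (fun x hx => by
      by_cases h : PP (d := d) (p := p) f B x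
      · exact Or.inl ⟨hx, h⟩
      · exact Or.inr ⟨hx, h⟩) ⟨y₁, hy₁, hy₁, hP₁⟩ ⟨y, hy, hy, hcon⟩
    exact hx2.2 hx1.2
  refine ⟨n, B, fun y₀ hy₀ => ?_⟩
  obtain ⟨E, Γ, _, _, _, _, _, _, 𝓕, q, hM, ht, hT⟩ := hAB y₀ hy₀
  obtain ⟨M, hMf⟩ := (hall y₀ hy₀).all I hf hM ht
    ((chartAt (Cm p) y₀).left_inv (mem_chart_source _ _))
  exact ⟨{
    E := E
    Γ := Γ
    𝓕 := 𝓕
    q := q
    χ := chartAt (Cm p) y₀
    model := hM
    M := M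
    form := fun t ht' => hMf.move I.c2 I.e2 ht' }, mem_chart_source _ _, ht, hT⟩

/-- Local data, with a holomorphic basis `F t` of the additive functions, with periods `c t`. -/
structure DLoc (f : Z → Y) {n : ℕ} (B : Matrix (Fin n) (Fin n) ℝ) (g : ℕ) extends
    Loc (d := d) (p := p) f B where
  T' : Set (Cm p)
  hT' : T' ⊆ 𝓕.T
  isOpen' : IsOpen T'
  F : Cm p → E → Fin g → ℂ
  c : Cm p → Γ → Fin g → ℂ
  bas : ∀ (t : Cm p) (ht : t ∈ T'), IsBas (𝓕.at t (hT' ht)) (F t) (c t)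
  holF : ∀ i, ∀ t ∈ T', ∀ z ∈ ball (0 : ℂ) 3, ∀ j,
    AnalyticAt ℂ (fun q : Cm p × ℂ => F q.1 (𝓕.σ i q.1 q.2) j) (t, z)
  holc : ∀ γ j, ∀ t ∈ T', AnalyticAt ℂ (fun s => c s γ j) t

/-- `glob`, with holomorphic bases -/
theorem dglob (I : Inputs) (hD : DStmt) {f : Z → Y}
    (hf : ContMDiff 𝓘(ℂ, Cm d) 𝓘(ℂ, Cm p) ω f) {S : Set Y}
    (hS : IsClosed S) (hconn : IsPreconnected Sᶜ)
    (hAB : ∀ y₀ ∉ S, ∃ (E Γ : Type) (_ : TopologicalSpace E) (_ : T2Space E)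
      (_ : SimplyConnectedSpace E) (_ : Group Γ) (_ : MulAction Γ E)
      (_ : ContinuousConstSMul Γ E) (𝓕 : Fam p E Γ) (q : Cm p → E → Z),
      Model (n := d) f 𝓕 (chartAt (Cm p) y₀) q ∧ chartAt (Cm p) y₀ y₀ ∈ 𝓕.T ∧
      ∀ t ∈ 𝓕.T, (chartAt (Cm p) y₀).symm t ∉ S) {y₁ : Y} (hy₁ : y₁ ∉ S) :
    ∃ (n g : ℕ) (_ : n = 2 * g) (B : Matrix (Fin n) (Fin n) ℝ), ∀ y₀ ∉ S,
      ∃ L : DLoc (d := d) (p := p) f B g,
      y₀ ∈ L.χ.source ∧ L.χ y₀ ∈ L.T' ∧ ∀ t ∈ L.T', L.χ.symm t ∉ S := by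
  obtain ⟨n, B, h⟩ := glob I hf hS hconn hAB hy₁
  obtain ⟨L₁, -, hL₁, -⟩ := h y₁ hy₁
  obtain ⟨g, -, -, -, -, hn, -⟩ := hD p L₁.E L₁.Γ L₁.𝓕 n L₁.M _ hL₁
  refine ⟨n, g, hn, B, fun y₀ hy₀ => ?_⟩
  obtain ⟨L, hs, hT, hSS⟩ := h y₀ hy₀
  obtain ⟨g', T', hT', F, c, hn', ho, ht, hb, hF, hc⟩ := hD p L.E L.Γ L.𝓕 n L.M _ hT
  obtain rfl : g' = g := by omega
  exact ⟨{ toLoc := L, T' := T', hT' := hT', isOpen' := ho, F := F, c := c, bas := hb,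
           holF := hF, holc := hc }, hs, ht, fun t ht' => hSS t (hT' ht')⟩

end

end Vale.Agent.P281.H64
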